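import Mathlib

/-!
P146, concavity of the one-window overlap in the window length: the finite-sum
identity `alg` (row of helper773).
-/

namespace Vale.Agent.P146.H461

open Finset

variable {κ X : Type*} [Fintype κ] [Fintype X]

private lemma fac (p q : X → ℝ) :
    ∑ ρ, ∑ τ, p ρ * q τ = (∑ ρ, p ρ) * ∑ τ, q τ := by
  rw [Finset.sum_mul_sum]

private lemma com4 (t : X → X → κ → κ → ℝ) :
    ∑ ρ, ∑ τ, ∑ e, ∑ f, t ρ τ e f = ∑ e, ∑ f, ∑ ρ, ∑ τ, t ρ τ e f := by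
  calc ∑ ρ, ∑ τ, ∑ e, ∑ f, t ρ τ e f
      = ∑ ρ, ∑ e, ∑ τ, ∑ f, t ρ τ e f :=
        Finset.sum_congr rfl fun ρ _ => Finset.sum_comm
    _ = ∑ e, ∑ ρ, ∑ τ, ∑ f, t ρ τ e f := Finset.sum_comm
    _ = ∑ e, ∑ ρ, ∑ f, ∑ τ, t ρ τ e f :=
        Finset.sum_congr rfl fun e _ => Finset.sum_congr rfl fun ρ _ => Finset.sum_comm
    _ = ∑ e, ∑ f, ∑ ρ, ∑ τ, t ρ τ e f :=
        Finset.sum_congr rfl fun e _ => Finset.sum_comm

private lemma pr (p q : κ → ℝ) :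
    (∑ e, p e) * (∑ f, q f) = ∑ e, ∑ f, p e * q f := by
  rw [Finset.sum_mul_sum]

theorem alg (a : X → κ → ℝ) (α : X → ℝ) (β : X → κ → ℝ)
    (γ : X → κ → κ → ℝ) (v : κ → ℝ) (A P Ψ h : κ → κ → ℝ) (x : ℝ)
    (hα : ∑ ρ, α ρ = 1) (hαa : ∀ e, ∑ ρ, α ρ * a ρ e = v e)
    (hαaa : ∀ e f, ∑ ρ, α ρ * (a ρ e * a ρ f) = A e f)
    (hβ : ∀ e, ∑ ρ, β ρ e = v e) (hβa : ∀ e f, ∑ ρ, β ρ e * a ρ f = P e f)
    (hP : ∀ e f, P e f = P f e) (hγ : ∀ e f, ∑ ρ, γ ρ e f = Ψ e f)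
    (hh : ∀ e f, h e f = h f e) :
    ∑ ρ, ∑ τ, ((∑ e, ∑ f, γ ρ e f * (a τ e * a τ f)) * α τ
        + α ρ * (∑ e, ∑ f, γ τ e f * (a ρ e * a ρ f))
        - 2 * (1 - x) ^ 2 * ((∑ e, β ρ e * a τ e) * (∑ e, β τ e * a ρ e))
        + 4 * x * (1 - x) * (∑ e, v e * (a τ e - a ρ e))
          * ((∑ e, β ρ e * a τ e) * α τ - α ρ * (∑ e, β τ e * a ρ e))
        + (4 * x ^ 2 * (∑ e, v e * (a τ e - a ρ e)) ^ 2
          - 2 * x * ∑ e, ∑ f, h e f * ((a τ e - a ρ e) * (a τ f - a ρ f))) * (α ρ * α τ))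
      = 2 * ∑ e, ∑ f, Ψ e f * A e f - 2 * (1 - x) ^ 2 * ∑ e, ∑ f, P e f * P e f
        + 8 * x * (1 - x) * ∑ e, ∑ f, v e * v f * (A e f - P e f)
        + 8 * x ^ 2 * (∑ e, ∑ f, v e * v f * A e f - (∑ e, v e ^ 2) ^ 2)
        - 4 * x * ∑ e, ∑ f, h e f * (A e f - v e * v f) := by
  have _ := hh
  -- the summand as a double sum over `e, f`
  have key : ∀ ρ τ, ((∑ e, ∑ f, γ ρ e f * (a τ e * a τ f)) * α τ
        + α ρ * (∑ e, ∑ f, γ τ e f * (a ρ e * a ρ f))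
        - 2 * (1 - x) ^ 2 * ((∑ e, β ρ e * a τ e) * (∑ e, β τ e * a ρ e))
        + 4 * x * (1 - x) * (∑ e, v e * (a τ e - a ρ e))
          * ((∑ e, β ρ e * a τ e) * α τ - α ρ * (∑ e, β τ e * a ρ e))
        + (4 * x ^ 2 * (∑ e, v e * (a τ e - a ρ e)) ^ 2
          - 2 * x * ∑ e, ∑ f, h e f * ((a τ e - a ρ e) * (a τ f - a ρ f))) * (α ρ * α τ))
      = ∑ e, ∑ f, (γ ρ e f * (α τ * (a τ e * a τ f))
          + (α ρ * (a ρ e * a ρ f)) * γ τ e f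
          - 2 * (1 - x) ^ 2 * ((β ρ e * a ρ f) * (β τ f * a τ e))
          + 4 * x * (1 - x) * v e * (β ρ f * (α τ * (a τ e * a τ f))
              - (β ρ f * a ρ e) * (α τ * a τ f) - (α ρ * a ρ f) * (β τ f * a τ e)
              + (α ρ * (a ρ e * a ρ f)) * β τ f)
          + (4 * x ^ 2 * (v e * v f) - 2 * x * h e f)
            * (α ρ * (α τ * (a τ e * a τ f)) - (α ρ * a ρ e) * (α τ * a τ f)
              - (α ρ * a ρ f) * (α τ * a τ e) + (α ρ * (a ρ e * a ρ f)) * α τ)) := by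
    intro ρ τ
    have e3 : (∑ e, β ρ e * a τ e) * (∑ e, β τ e * a ρ e)
        = ∑ e, ∑ f, (β ρ e * a ρ f) * (β τ f * a τ e) := by
      rw [pr]
      exact Finset.sum_congr rfl fun e _ => Finset.sum_congr rfl fun f _ => by ring
    have e4 : (∑ e, v e * (a τ e - a ρ e))
          * ((∑ e, β ρ e * a τ e) * α τ - α ρ * (∑ e, β τ e * a ρ e))
        = ∑ e, ∑ f, v e * (β ρ f * (α τ * (a τ e * a τ f))
              - (β ρ f * a ρ e) * (α τ * a τ f) - (α ρ * a ρ f) * (β τ f * a τ e)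
              + (α ρ * (a ρ e * a ρ f)) * β τ f) := by
      have e4' : (∑ e, β ρ e * a τ e) * α τ - α ρ * (∑ e, β τ e * a ρ e)
          = ∑ f, (β ρ f * a τ f * α τ - α ρ * (β τ f * a ρ f)) := by
        rw [Finset.sum_mul, Finset.mul_sum, ← Finset.sum_sub_distrib]
      rw [e4', pr]
      exact Finset.sum_congr rfl fun e _ => Finset.sum_congr rfl fun f _ => by ring
    have e5 : (∑ e, v e * (a τ e - a ρ e)) ^ 2
        = ∑ e, ∑ f, (v e * v f) * ((a τ e - a ρ e) * (a τ f - a ρ f)) := by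
      rw [pow_two, pr]
      exact Finset.sum_congr rfl fun e _ => Finset.sum_congr rfl fun f _ => by ring
    rw [show 4 * x * (1 - x) * (∑ e, v e * (a τ e - a ρ e))
          * ((∑ e, β ρ e * a τ e) * α τ - α ρ * (∑ e, β τ e * a ρ e))
        = 4 * x * (1 - x) * ((∑ e, v e * (a τ e - a ρ e))
          * ((∑ e, β ρ e * a τ e) * α τ - α ρ * (∑ e, β τ e * a ρ e))) by ring,
      e3, e4, e5]
    simp only [Finset.mul_sum, Finset.sum_mul, ← Finset.sum_add_distrib,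
      ← Finset.sum_sub_distrib]
    exact Finset.sum_congr rfl fun e _ => Finset.sum_congr rfl fun f _ => by ring
  simp only [key]
  rw [com4]
  -- the sum over `ρ, τ` at fixed `e, f`
  have ev : ∀ e f, ∑ ρ, ∑ τ, (γ ρ e f * (α τ * (a τ e * a τ f))
          + (α ρ * (a ρ e * a ρ f)) * γ τ e f
          - 2 * (1 - x) ^ 2 * ((β ρ e * a ρ f) * (β τ f * a τ e))
          + 4 * x * (1 - x) * v e * (β ρ f * (α τ * (a τ e * a τ f))
              - (β ρ f * a ρ e) * (α τ * a τ f) - (α ρ * a ρ f) * (β τ f * a τ e)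
              + (α ρ * (a ρ e * a ρ f)) * β τ f)
          + (4 * x ^ 2 * (v e * v f) - 2 * x * h e f)
            * (α ρ * (α τ * (a τ e * a τ f)) - (α ρ * a ρ e) * (α τ * a τ f)
              - (α ρ * a ρ f) * (α τ * a τ e) + (α ρ * (a ρ e * a ρ f)) * α τ))
      = 2 * (Ψ e f * A e f) - 2 * (1 - x) ^ 2 * (P e f * P e f)
        + 8 * x * (1 - x) * (v e * v f * (A e f - P e f))
        + 8 * x ^ 2 * (v e * v f * A e f - v e ^ 2 * v f ^ 2)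
        - 4 * x * (h e f * (A e f - v e * v f)) := by
    intro e f
    calc _ = (∑ ρ, ∑ τ, γ ρ e f * (α τ * (a τ e * a τ f)))
          + (∑ ρ, ∑ τ, (α ρ * (a ρ e * a ρ f)) * γ τ e f)
          - 2 * (1 - x) ^ 2 * (∑ ρ, ∑ τ, (β ρ e * a ρ f) * (β τ f * a τ e))
          + 4 * x * (1 - x) * v e * ((∑ ρ, ∑ τ, β ρ f * (α τ * (a τ e * a τ f)))
              - (∑ ρ, ∑ τ, (β ρ f * a ρ e) * (α τ * a τ f))
              - (∑ ρ, ∑ τ, (α ρ * a ρ f) * (β τ f * a τ e))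
              + (∑ ρ, ∑ τ, (α ρ * (a ρ e * a ρ f)) * β τ f))
          + (4 * x ^ 2 * (v e * v f) - 2 * x * h e f)
            * ((∑ ρ, ∑ τ, α ρ * (α τ * (a τ e * a τ f)))
              - (∑ ρ, ∑ τ, (α ρ * a ρ e) * (α τ * a τ f))
              - (∑ ρ, ∑ τ, (α ρ * a ρ f) * (α τ * a τ e))
              + (∑ ρ, ∑ τ, (α ρ * (a ρ e * a ρ f)) * α τ)) := by
          simp only [Finset.mul_sum, ← Finset.sum_add_distrib, ← Finset.sum_sub_distrib]
      _ = _ := by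
          simp only [fac, hγ, hαaa, hβa, hβ, hαa, hα]
          rw [hP f e]
          ring
  simp only [ev]
  have e6 : (∑ e, v e ^ 2) ^ 2 = ∑ e, ∑ f, v e ^ 2 * v f ^ 2 := by
    rw [pow_two, pr]
  rw [e6]
  simp only [Finset.mul_sum, ← Finset.sum_add_distrib, ← Finset.sum_sub_distrib]

end Vale.Agent.P146.H461
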