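import Vale.Agent.P146.H773.Def

/-!
# P146: evaluation of the conditional averages of the Gibbs weights
-/

open MeasureTheory ProbabilityTheory

namespace Vale.Agent.P146.H461

open Vale.Agent.P157.Lv Vale.Agent.P146.H425 Vale.Agent.P146.H325 Vale.Agent.P146.H332
open Vale.Agent.P146.H785 Vale.Agent.P146.H773

set_option linter.unusedSectionVars false

section

variable {κ : Type} [Fintype κ] [DecidableEq κ] {X : Type} [Fintype X] [Nonempty X]
variable (k : ℝ) (S : κ → X → ℝ)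

lemma gw_eq [DecidableEq X] (ρ : X) (u : κ → ℝ) :
    gw k S ρ u = H325.av k S (fun σ => if σ = ρ then 1 else 0) u := by
  unfold gw H325.av
  congr 1
  simp

lemma sum_gw_mul (h : X → ℝ) (u : κ → ℝ) : ∑ ρ, gw k S ρ u * h ρ = H325.av k S h u := by
  unfold gw H325.av
  rw [Finset.sum_div]
  exact Finset.sum_congr rfl fun ρ _ => by ring

lemma sum_gw (u : κ → ℝ) : ∑ ρ, gw k S ρ u = 1 := by
  have h := sum_gw_mul k S (fun _ => 1) u
  simp only [mul_one] at h
  rw [h, av_one]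

lemma gw_nonneg (ρ : X) (u : κ → ℝ) : 0 ≤ gw k S ρ u :=
  div_nonneg (ez_pos k S u ρ).le (Zp_pos k S u).le

lemma eg_gw (ρ : X) : EG (gw k S ρ) := by
  classical
  have : gw k S ρ = H325.av k S (fun σ => if σ = ρ then 1 else 0) := by
    funext u
    exact gw_eq k S ρ u
  rw [this]
  exact eg_av k S _

lemma eg_Dg (e : κ) : EG (Dg k S e) := (eg_av k S (S e)).const_mul k

lemma eg_Hg (e f : κ) : EG (Hg k S e f) :=
  (((eg_av k S (fun σ => S e σ * S f σ)).sub
    ((eg_av k S (S e)).mul (eg_av k S (S f)))).const_mul k).const_mul k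

lemma Hg_add (e f : κ) (u : κ → ℝ) :
    Hg k S e f u + Dg k S e u * Dg k S f u = k * (k * H325.av k S (fun σ => S e σ * S f σ) u) := by
  unfold Hg Dg
  ring

variable (x s : ℝ) (y : κ → ℝ)

/-- sums over the configurations inside the average -/
lemma sum_E_gw_mul {ψ : (κ → ℝ) → ℝ} (hψ : EG ψ) (c : X → ℝ) :
    ∑ ρ, Ax x s (lz k S) (fun u => gw k S ρ u * ψ u) y * c ρ =
      Ax x s (lz k S) (fun u => H325.av k S c u * ψ u) y := by
  have h := (c11_lz k S)
  have e1 : ∀ ρ, Ax x s (lz k S) (fun u => gw k S ρ u * ψ u) y * c ρ =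
      Ax x s (lz k S) (fun u => c ρ * (gw k S ρ u * ψ u)) y := by
    intro ρ
    rw [Ax_const_mul (c ρ) (fun u => gw k S ρ u * ψ u) x s y, mul_comm]
  simp_rw [e1]
  rw [← Ax_sum h.lip h.B0 Finset.univ (φ := fun ρ u => c ρ * (gw k S ρ u * ψ u))
    (fun ρ _ => ((eg_gw k S ρ).mul hψ).const_mul (c ρ)) x s y]
  congr 1
  funext u
  rw [← sum_gw_mul, Finset.sum_mul]
  exact Finset.sum_congr rfl fun ρ _ => by ring

theorem E_gw_mul {ψ : (κ → ℝ) → ℝ} (hψ : EG ψ) :
    ∑ ρ, Ax x s (lz k S) (fun u => gw k S ρ u * ψ u) y = Ax x s (lz k S) ψ y := by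
  have h := sum_E_gw_mul k S x s y hψ (fun _ => 1)
  simp only [mul_one, av_one, one_mul] at h
  exact h

theorem E_gw_sum_a (c : X → ℝ) :
    ∑ ρ, Ax x s (lz k S) (gw k S ρ) y * c ρ = Ax x s (lz k S) (H325.av k S c) y := by
  have h := sum_E_gw_mul k S x s y (EG.const 1) c
  simp only [mul_one] at h
  exact h

theorem E_gw_one : ∑ ρ, Ax x s (lz k S) (gw k S ρ) y = 1 := by
  have h := E_gw_sum_a k S x s y (fun _ => 1)
  simp only [mul_one] at h
  rw [h]
  have e : H325.av k S (fun _ : X => (1 : ℝ)) = fun _ => 1 := by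
    funext u
    exact av_one k S u
  rw [e]
  exact Ax_const (c11_lz k S).lip (c11_lz k S).B0 1 x s y

theorem E_gw_a (e : κ) :
    ∑ ρ, Ax x s (lz k S) (gw k S ρ) y * (k * S e ρ) = DW x s (lz k S) (Dg k S) e y := by
  rw [E_gw_sum_a k S x s y (fun ρ => k * S e ρ), DW_eq]
  congr 1
  funext u
  unfold Dg
  rw [av_mul]

theorem E_gw_aa (e f : κ) :
    ∑ ρ, Ax x s (lz k S) (gw k S ρ) y * (k * S e ρ * (k * S f ρ)) =
      Ax x s (lz k S) (Hg k S e f) y +
        Ax x s (lz k S) (fun u => Dg k S e u * Dg k S f u) y := by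
  rw [E_gw_sum_a k S x s y (fun ρ => k * S e ρ * (k * S f ρ)),
    ← Ax_add (c11_lz k S).lip (c11_lz k S).B0 (eg_Hg k S e f)
      ((eg_Dg k S e).mul (eg_Dg k S f))]
  congr 1
  funext u
  rw [Hg_add]
  have : (fun ρ => k * S e ρ * (k * S f ρ)) = fun ρ => k * (k * (S e ρ * S f ρ)) := by
    funext ρ
    ring
  rw [this, av_mul, av_mul]

theorem E_gw_Da (e f : κ) :
    ∑ ρ, Ax x s (lz k S) (fun u => gw k S ρ u * Dg k S e u) y * (k * S f ρ) =
      Ax x s (lz k S) (fun u => Dg k S e u * Dg k S f u) y := by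
  rw [sum_E_gw_mul k S x s y (eg_Dg k S e) (fun ρ => k * S f ρ)]
  congr 1
  funext u
  rw [av_mul]
  unfold Dg
  ring

/-- the Boltzmann factor of one configuration with the exponent `x` of the past -/
theorem int_planted (ρ : X) (φ : (κ → ℝ) → ℝ) :
    ∫ z, Real.exp (k * ∑ e, S e ρ * (y + s • z) e - (1 - x) * lz k S (y + s • z)) *
      φ (y + s • z) ∂(gI κ) =
      (∫ z, Real.exp (x * lz k S (y + s • z)) ∂(gI κ)) *
        Ax x s (lz k S) (fun u => gw k S ρ u * φ u) y := by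
  have hpos : 0 < ∫ z, Real.exp (x * lz k S (y + s • z)) ∂(gI κ) :=
    (c11_lz k S).lip.pos (c11_lz k S).B0 y s x
  unfold Ax
  rw [mul_div_cancel₀ _ hpos.ne']
  refine integral_congr_ae (Filter.Eventually.of_forall fun z => ?_)
  simp only
  have e1 : Real.exp (k * ∑ e, S e ρ * (y + s • z) e - (1 - x) * lz k S (y + s • z)) =
      Real.exp (x * lz k S (y + s • z)) * gw k S ρ (y + s • z) := by
    have h2 : Zp k S (y + s • z) = Real.exp (lz k S (y + s • z)) := by
      unfold lz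
      rw [Real.exp_log (Zp_pos k S _)]
    unfold gw ez
    rw [h2, ← Real.exp_sub, ← Real.exp_add]
    congr 1
    ring
  rw [e1]
  ring

end

end Vale.Agent.P146.H461
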