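import Vale.Agent.P146.H95.R2Spec
import Vale.Agent.P146.H941.R6End

/-!
Plan R2, two-layer law: the Cauchy-Schwarz rows `cs1`, `cs2`, `ka` and the signs, in the letters of
`H95/R2Spec.lean` (nested means of 693), for any number of layers.
-/

open MeasureTheory ProbabilityTheory

namespace Vale.Agent.P146.H461

open Vale.Agent.P157.Lv Vale.Agent.P146.H425 Vale.Agent.P146.H325 Vale.Agent.P146.H332
  Vale.Agent.P146.H712 Vale.Agent.P146.H816 Vale.Agent.P146.R1 Vale.Agent.P146.R1C Matrix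
  Vale.Agent.P146.R1S Vale.Agent.P146.H693 Vale.Agent.P146.H95.R2
open Vale.Agent.P146.H785 (Ax)

set_option linter.unusedSectionVars false

variable {n : ℕ} {k x : ℝ} {S : CS n k x} {t2 : ℝ} {m σ : ℕ → ℝ}

/-! ### the calculus of `Lf` -/

lemma Al_nonneg {l : ℕ} {φ : (Pair n → ℝ) → ℝ} (h : ∀ u, 0 ≤ φ u) (z : Pair n → ℝ) :
    0 ≤ Al S t2 m σ l φ z := by
  unfold Al Ax
  exact div_nonneg (integral_nonneg fun _ => mul_nonneg (Real.exp_pos _).le (h _))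
    (integral_nonneg fun _ => (Real.exp_pos _).le)

lemma Lf_nonneg {l : ℕ} {φ : (Pair n → ℝ) → ℝ} (h : ∀ u, 0 ≤ φ u) : ∀ d z,
    0 ≤ Lf S t2 m σ l φ d z
  | 0, z => h z
  | d + 1, z => Al_nonneg (Lf_nonneg h d) z

lemma Lf_const_mul (l : ℕ) (c : ℝ) (φ : (Pair n → ℝ) → ℝ) : ∀ d,
    Lf S t2 m σ l (fun u => c * φ u) d = fun z => c * Lf S t2 m σ l φ d z
  | 0 => rfl
  | d + 1 => by
    show Al S t2 m σ (l + d) (Lf S t2 m σ l (fun u => c * φ u) d) = _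
    rw [Lf_const_mul l c φ d, Al_const_mul]
    rfl

lemma Lf_sum {ι : Type*} (T : Finset ι) {l : ℕ} {φ : ι → (Pair n → ℝ) → ℝ}
    (h : ∀ i ∈ T, EG (φ i)) : ∀ d, Pm m (l + d) →
    Lf S t2 m σ l (fun u => ∑ i ∈ T, φ i u) d = fun z => ∑ i ∈ T, Lf S t2 m σ l (φ i) d z
  | 0, _ => rfl
  | d + 1, hm => by
    show Al S t2 m σ (l + d) (Lf S t2 m σ l (fun u => ∑ i ∈ T, φ i u) d) = _
    rw [Lf_sum T h d (hm.mono (by omega)), Al_sum (l + d) hm T fun i hi =>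
      eg_Lf (h i hi) d (hm.mono (by omega))]
    rfl

lemma Lf_add {l : ℕ} {φ ψ : (Pair n → ℝ) → ℝ} (h : EG φ) (h' : EG ψ) : ∀ d, Pm m (l + d) →
    Lf S t2 m σ l (fun u => φ u + ψ u) d =
      fun z => Lf S t2 m σ l φ d z + Lf S t2 m σ l ψ d z
  | 0, _ => rfl
  | d + 1, hm => by
    show Al S t2 m σ (l + d) (Lf S t2 m σ l (fun u => φ u + ψ u) d) = _
    rw [Lf_add h h' d (hm.mono (by omega)), Al_add (l + d) hm
      (eg_Lf h d (hm.mono (by omega))) (eg_Lf h' d (hm.mono (by omega)))]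
    rfl

/-- the inner means and the outer means together -/
lemma Lf_Tl (φ : (Pair n → ℝ) → ℝ) (l : ℕ) : ∀ d,
    Lf S t2 m σ l (Tl S t2 m σ φ l) d = Tl S t2 m σ φ (l + d)
  | 0 => rfl
  | d + 1 => by
    show Al S t2 m σ (l + d) (Lf S t2 m σ l (Tl S t2 m σ φ l) d) = _
    rw [Lf_Tl φ l d]
    rfl

lemma Tl_eq_Lf (φ : (Pair n → ℝ) → ℝ) (l : ℕ) : Tl S t2 m σ φ l = Lf S t2 m σ 0 φ l := by
  have h := Lf_Tl (S := S) (t2 := t2) (m := m) (σ := σ) φ 0 l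
  rw [Nat.zero_add] at h
  exact h.symm

/-- a fixed quadratic form of functions -/
lemma Lf_qf {l d : ℕ} (hm : Pm m (l + d)) (M : Matrix (Fin n) (Fin n) ℝ)
    {f : Fin n → Fin n → (Pair n → ℝ) → ℝ} (hf : ∀ i j, EG (f i j)) (z : Pair n → ℝ) :
    Lf S t2 m σ l (fun u => ∑ i, ∑ j, M i j * f i j u) d z =
      ∑ i, ∑ j, M i j * Lf S t2 m σ l (f i j) d z := by
  rw [Lf_sum Finset.univ (φ := fun i u => ∑ j, M i j * f i j u)
    (fun i _ => EG.sum _ fun j _ => (hf i j).const_mul _) d hm]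
  refine Finset.sum_congr rfl fun i _ => ?_
  rw [Lf_sum Finset.univ (φ := fun j u => M i j * f i j u)
    (fun j _ => (hf i j).const_mul _) d hm]
  refine Finset.sum_congr rfl fun j _ => ?_
  rw [Lf_const_mul]

lemma Lf_qf2 {l d : ℕ} (hm : Pm m (l + d)) (c : Fin n → Fin n → ℝ)
    {f : Fin n → Fin n → (Pair n → ℝ) → ℝ} (hf : ∀ i j, EG (f i j)) (z : Pair n → ℝ) :
    Lf S t2 m σ l (fun u => ∑ i, ∑ j, c i j * f i j u) d z =
      ∑ i, ∑ j, c i j * Lf S t2 m σ l (f i j) d z :=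
  Lf_qf hm c hf z

/-! ### matrices -/

lemma posS {M : Matrix (Fin n) (Fin n) ℝ} (h : Psd M) : M.PosSemidef := by
  refine Matrix.PosSemidef.of_dotProduct_mulVec_nonneg ?_ fun v => ?_
  · rw [Matrix.IsHermitian, Matrix.conjTranspose_eq_transpose_of_trivial]
    exact h.1
  · refine (h.2 v).trans (le_of_eq ?_)
    simp only [dotProduct, mulVec, Finset.mul_sum, star_trivial]
    exact Finset.sum_congr rfl fun i _ => Finset.sum_congr rfl fun j _ => by ring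

lemma tr_sum {M : Matrix (Fin n) (Fin n) ℝ} (h : Mᵀ = M) (X : Matrix (Fin n) (Fin n) ℝ) :
    (M * X).trace = ∑ i, ∑ j, M i j * X i j := by
  simp only [Matrix.trace, Matrix.diag_apply, Matrix.mul_apply]
  rw [Finset.sum_comm]
  refine Finset.sum_congr rfl fun i _ => Finset.sum_congr rfl fun j _ => ?_
  have h1 : M j i = M i j := by
    conv_rhs => rw [← h]
    rfl
  rw [h1]

lemma e_ACC (t : ℝ) (v v' : Pair n → ℝ) (i j : Fin n) :
    (S.A t v * S.A t v * S.A t v') i j = ∑ b, H693.A2 S t i b v * S.A t v' b j := by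
  unfold H693.A2
  rw [Matrix.mul_apply]
  rfl

lemma e_ABA (A B : Matrix (Fin n) (Fin n) ℝ) (i j : Fin n) :
    (A * B * A) i j = ∑ b, ∑ c, B b c * (A i b * A c j) := by
  rw [Matrix.mul_apply]
  simp only [Matrix.mul_apply, Finset.sum_mul]
  rw [Finset.sum_comm]
  exact Finset.sum_congr rfl fun b _ => Finset.sum_congr rfl fun c _ => by ring

/-- the inequality for two independent copies -/
lemma quad_pt {M : Matrix (Fin n) (Fin n) ℝ} (hM : Psd M) (v v' : Pair n → ℝ) (s : ℝ) :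
    0 ≤ T3 S t2 M v + ((-2 * s) * (∑ i, ∑ j, M i j * ∑ b, H693.A2 S t2 i b v * S.A t2 v' b j) +
      s ^ 2 * ∑ i, ∑ j, M i j * ∑ b, ∑ c, S.A t2 v b c * (S.A t2 v' i b * S.A t2 v' c j)) := by
  have h := H941.tr_quad (posS hM) (posS (S.psd_A t2 v)) (posS (S.psd_A t2 v')) s
  rw [tr_sum hM.1, tr_sum hM.1, tr_sum hM.1] at h
  simp only [e_ACC] at h
  simp only [e_ABA (S.A t2 v') (S.A t2 v)] at h
  have h3 : T3 S t2 M v = ∑ i, ∑ j, M i j * ∑ b, H693.A2 S t2 i b v * S.A t2 v b j := T3_eq S t2 M v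
  rw [h3]
  linarith

lemma eg_cf (l : ℕ) (i j : Fin n) (c : Fin n → ℝ) :
    EG fun v => ∑ b, H693.A2 S t2 i b v * c b :=
  EG.sum _ fun b _ => (H693.eg_A2 S t2 i b).mul (EG.const _)

/-- the first mean -/
lemma quad_1 (l : ℕ) (hm : Pm m l) {M : Matrix (Fin n) (Fin n) ℝ} (hM : Psd M)
    (u v' : Pair n → ℝ) (s : ℝ) :
    0 ≤ Tl S t2 m σ (T3 S t2 M) l u +
      ((-2 * s) * (∑ i, ∑ j, M i j * ∑ b, Gl S t2 m σ l i b u * S.A t2 v' b j) +
      s ^ 2 * ∑ i, ∑ j, M i j *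
        ∑ b, ∑ c, H693.Cl S t2 m σ l b c u * (S.A t2 v' i b * S.A t2 v' c j)) := by
  have hm0 : Pm m (0 + l) := by rwa [Nat.zero_add]
  have h0 := Lf_nonneg (S := S) (t2 := t2) (m := m) (σ := σ) (l := 0)
    (fun v => quad_pt (S := S) (t2 := t2) hM v v' s) l u
  have g1 : ∀ i j, EG fun v : Pair n → ℝ => ∑ b, H693.A2 S t2 i b v * S.A t2 v' b j := fun i j =>
    EG.sum _ fun b _ => (H693.eg_A2 S t2 i b).mul (EG.const _)
  have g2 : ∀ i j, EG fun v : Pair n → ℝ => ∑ b, ∑ c, S.A t2 v b c *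
      (S.A t2 v' i b * S.A t2 v' c j) := fun i j =>
    EG.sum _ fun b _ => EG.sum _ fun c _ => (S.eg_A t2 b c).mul (EG.const _)
  have g1' : EG fun v : Pair n → ℝ => ∑ i, ∑ j, M i j * ∑ b, H693.A2 S t2 i b v * S.A t2 v' b j :=
    EG.sum _ fun i _ => EG.sum _ fun j _ => (g1 i j).const_mul _
  have g2' : EG fun v : Pair n → ℝ => ∑ i, ∑ j, M i j * ∑ b, ∑ c, S.A t2 v b c *
      (S.A t2 v' i b * S.A t2 v' c j) :=
    EG.sum _ fun i _ => EG.sum _ fun j _ => (g2 i j).const_mul _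
  rw [Lf_add (eg_T3 S t2 M) ((g1'.const_mul _).add (g2'.const_mul _)) l hm0] at h0
  simp only at h0
  rw [Lf_add (g1'.const_mul _) (g2'.const_mul _) l hm0, Lf_const_mul, Lf_const_mul] at h0
  simp only at h0
  rw [Lf_qf hm0 M g1, Lf_qf hm0 M g2, ← Tl_eq_Lf] at h0
  have e1 : ∀ i j, Lf S t2 m σ 0 (fun v => ∑ b, H693.A2 S t2 i b v * S.A t2 v' b j) l u =
      ∑ b, Gl S t2 m σ l i b u * S.A t2 v' b j := by
    intro i j
    have c1 : (fun v : Pair n → ℝ => ∑ b, H693.A2 S t2 i b v * S.A t2 v' b j) =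
        fun v => ∑ b, S.A t2 v' b j * H693.A2 S t2 i b v :=
      funext fun v => Finset.sum_congr rfl fun b _ => mul_comm _ _
    rw [c1, Lf_sum _ (fun b _ => (H693.eg_A2 S t2 i b).const_mul _) l hm0]
    refine Finset.sum_congr rfl fun b _ => ?_
    rw [Lf_const_mul, ← Tl_eq_Lf]
    unfold Gl
    ring
  have e2 : ∀ i j, Lf S t2 m σ 0 (fun v => ∑ b, ∑ c, S.A t2 v b c *
      (S.A t2 v' i b * S.A t2 v' c j)) l u =
      ∑ b, ∑ c, H693.Cl S t2 m σ l b c u * (S.A t2 v' i b * S.A t2 v' c j) := by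
    intro i j
    have c1 : (fun v : Pair n → ℝ => ∑ b, ∑ c, S.A t2 v b c * (S.A t2 v' i b * S.A t2 v' c j)) =
        fun v => ∑ b, ∑ c, (S.A t2 v' i b * S.A t2 v' c j) * S.A t2 v b c :=
      funext fun v => Finset.sum_congr rfl fun b _ => Finset.sum_congr rfl fun c _ => mul_comm _ _
    rw [c1, Lf_qf2 hm0 (fun b c => S.A t2 v' i b * S.A t2 v' c j) (f := fun b c v => S.A t2 v b c)
      (fun b c => S.eg_A t2 b c)]
    refine Finset.sum_congr rfl fun b _ => Finset.sum_congr rfl fun c _ => ?_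
    rw [← Tl_eq_Lf]
    unfold H693.Cl
    ring
  simp only [e1, e2] at h0
  exact h0

/-- **the mean Cauchy-Schwarz at the position below the layer `l`** -/
lemma quad_2 (l : ℕ) (hm : Pm m l) {M : Matrix (Fin n) (Fin n) ℝ} (hM : Psd M)
    (u : Pair n → ℝ) (s : ℝ) :
    0 ≤ Tl S t2 m σ (T3 S t2 M) l u + ((-2 * s) * JJ S t2 m σ l M u +
      s ^ 2 * KK3 S t2 m σ l M u) := by
  have hm0 : Pm m (0 + l) := by rwa [Nat.zero_add]
  have h0 := Lf_nonneg (S := S) (t2 := t2) (m := m) (σ := σ) (l := 0)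
    (fun v' => quad_1 (S := S) (t2 := t2) (m := m) (σ := σ) l hm hM u v' s) l u
  have g1 : ∀ i j, EG fun v' : Pair n → ℝ => ∑ b, Gl S t2 m σ l i b u * S.A t2 v' b j :=
    fun i j => EG.sum _ fun b _ => (S.eg_A t2 b j).const_mul _
  have g2 : ∀ i j, EG fun v' : Pair n → ℝ => ∑ b, ∑ c, H693.Cl S t2 m σ l b c u *
      (S.A t2 v' i b * S.A t2 v' c j) := fun i j =>
    EG.sum _ fun b _ => EG.sum _ fun c _ => ((S.eg_A t2 i b).mul (S.eg_A t2 c j)).const_mul _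
  have g1' : EG fun v' : Pair n → ℝ => ∑ i, ∑ j, M i j *
      ∑ b, Gl S t2 m σ l i b u * S.A t2 v' b j :=
    EG.sum _ fun i _ => EG.sum _ fun j _ => (g1 i j).const_mul _
  have g2' : EG fun v' : Pair n → ℝ => ∑ i, ∑ j, M i j * ∑ b, ∑ c, H693.Cl S t2 m σ l b c u *
      (S.A t2 v' i b * S.A t2 v' c j) :=
    EG.sum _ fun i _ => EG.sum _ fun j _ => (g2 i j).const_mul _
  rw [Lf_add (EG.const _) ((g1'.const_mul _).add (g2'.const_mul _)) l hm0] at h0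
  simp only at h0
  rw [Lf_add (g1'.const_mul _) (g2'.const_mul _) l hm0, Lf_const_mul, Lf_const_mul] at h0
  simp only at h0
  rw [Lf_qf hm0 M g1, Lf_qf hm0 M g2] at h0
  have e0 : Lf S t2 m σ 0 (fun _ => Tl S t2 m σ (T3 S t2 M) l u) l u =
      Tl S t2 m σ (T3 S t2 M) l u := by
    rw [← Tl_eq_Lf]
    unfold Tl
    rw [TP_const hU _ l hm]
  have e1 : ∀ i j, Lf S t2 m σ 0 (fun v' => ∑ b, Gl S t2 m σ l i b u * S.A t2 v' b j) l u =
      ∑ b, Gl S t2 m σ l i b u * H693.Cl S t2 m σ l b j u := by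
    intro i j
    rw [Lf_sum _ (fun b _ => (S.eg_A t2 b j).const_mul _) l hm0]
    refine Finset.sum_congr rfl fun b _ => ?_
    rw [Lf_const_mul, ← Tl_eq_Lf]
    rfl
  have e2 : ∀ i j, Lf S t2 m σ 0 (fun v' => ∑ b, ∑ c, H693.Cl S t2 m σ l b c u *
      (S.A t2 v' i b * S.A t2 v' c j)) l u =
      ∑ b, ∑ c, H693.Cl S t2 m σ l b c u *
        Tl S t2 m σ (fun v => S.A t2 v i b * S.A t2 v c j) l u := by
    intro i j
    rw [Lf_qf2 hm0 (fun b c => H693.Cl S t2 m σ l b c u)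
      (f := fun b c v' => S.A t2 v' i b * S.A t2 v' c j)
      (fun b c => (S.eg_A t2 i b).mul (S.eg_A t2 c j))]
    refine Finset.sum_congr rfl fun b _ => Finset.sum_congr rfl fun c _ => ?_
    rw [← Tl_eq_Lf]
  rw [e0] at h0
  simp only [e1, e2] at h0
  exact h0

/-- `C_l` is positive semidefinite -/
lemma Cl_psd (l : ℕ) (hm : Pm m l) (u : Pair n → ℝ) :
    Psd (fun i j => H693.Cl S t2 m σ l i j u : Matrix (Fin n) (Fin n) ℝ) := by
  refine ⟨?_, fun c => ?_⟩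
  · ext i j
    exact congrFun (H693.Cl_comm l j i) u
  · have hm0 : Pm m (0 + l) := by rwa [Nat.zero_add]
    have h0 := Lf_nonneg (S := S) (t2 := t2) (m := m) (σ := σ) (l := 0)
      (fun v => (S.psd_A t2 v).2 c) l u
    rw [Lf_qf2 hm0 (fun i j => c i * c j) (f := fun i j v => S.A t2 v i j)
      (fun i j => S.eg_A t2 i j)] at h0
    simp only [← Tl_eq_Lf] at h0
    exact h0

/-- `tr (M A B A) ≥ 0` -/
lemma aba_nonneg {M A B : Matrix (Fin n) (Fin n) ℝ} (hM : Psd M) (hA : Psd A) (hB : Psd B) :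
    0 ≤ ∑ i, ∑ j, M i j * ∑ b, ∑ c, B b c * (A i b * A c j) := by
  have h1 : (A * B * A).PosSemidef := by
    have h := (posS hB).mul_mul_conjTranspose_same A
    rwa [Matrix.conjTranspose_eq_transpose_of_trivial, hA.1] at h
  have h2 := H941.tr_mul_nonneg (posS hM) h1
  rw [tr_sum hM.1] at h2
  simp only [e_ABA] at h2
  exact h2

lemma KK3_eq (l : ℕ) (hm : Pm m l) (M : Matrix (Fin n) (Fin n) ℝ) (u : Pair n → ℝ) :
    KK3 S t2 m σ l M u = Tl S t2 m σ (fun v => ∑ i, ∑ j, M i j * ∑ b, ∑ c,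
      H693.Cl S t2 m σ l b c u * (S.A t2 v i b * S.A t2 v c j)) l u := by
  have hm0 : Pm m (0 + l) := by rwa [Nat.zero_add]
  have g2 : ∀ i j, EG fun v' : Pair n → ℝ => ∑ b, ∑ c, H693.Cl S t2 m σ l b c u *
      (S.A t2 v' i b * S.A t2 v' c j) := fun i j =>
    EG.sum _ fun b _ => EG.sum _ fun c _ => ((S.eg_A t2 i b).mul (S.eg_A t2 c j)).const_mul _
  rw [Tl_eq_Lf, Lf_qf hm0 M g2]
  unfold KK3
  refine Finset.sum_congr rfl fun i _ => Finset.sum_congr rfl fun j _ => ?_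
  rw [Lf_qf2 hm0 (fun b c => H693.Cl S t2 m σ l b c u)
      (f := fun b c v' => S.A t2 v' i b * S.A t2 v' c j)
      (fun b c => (S.eg_A t2 i b).mul (S.eg_A t2 c j))]
  simp only [← Tl_eq_Lf]

lemma KK3_nonneg (l : ℕ) (hm : Pm m l) {M : Matrix (Fin n) (Fin n) ℝ} (hM : Psd M)
    (u : Pair n → ℝ) : 0 ≤ KK3 S t2 m σ l M u := by
  rw [KK3_eq l hm]
  exact TP_nonneg (fun v => aba_nonneg hM (S.psd_A t2 v) (Cl_psd l hm u)) l u

lemma T3_nonneg {M : Matrix (Fin n) (Fin n) ℝ} (hM : Psd M) (v : Pair n → ℝ) :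
    0 ≤ T3 S t2 M v := by
  have h := aba_nonneg hM (S.psd_A t2 v) (S.psd_A t2 v)
  simp only [← e_ABA] at h
  exact h

/-! ### the means over all the layers and over the base point -/

lemma eg_B {N l d : ℕ} (hN : Pm m N) (hm : Pm m (l + d))
    {f : Fin n → Fin n → (Pair n → ℝ) → ℝ} (hf : ∀ i j, EG (f i j)) (c : ℝ) :
    EG fun g => Lf S t2 m σ l (fun u => ∑ i, ∑ j, H693.QR S t2 m σ N (c • g) i j * f i j u) d
      (c • g) := by
  have e : (fun g : Pair n → ℝ => Lf S t2 m σ l (fun u => ∑ i, ∑ j,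
      H693.QR S t2 m σ N (c • g) i j * f i j u) d (c • g)) = fun g => ∑ i, ∑ j,
      H693.QR S t2 m σ N (c • g) i j * Lf S t2 m σ l (f i j) d (c • g) :=
    funext fun g => Lf_qf hm _ hf _
  rw [e]
  exact EG.sum _ fun i _ => EG.sum _ fun j _ =>
    (H693.eg_scale (eg_QR N hN i j) c).mul (H693.eg_scale (eg_Lf (hf i j) d hm) c)

variable (S t2 m σ)

/-- `E tr (Y C³)` -/
noncomputable def xA3 (N : ℕ) (c : ℝ) (g : Pair n → ℝ) : ℝ :=
  Tl S t2 m σ (T3 S t2 (H693.QR S t2 m σ N (c • g))) N (c • g)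

/-- `E tr (Y C² C_l)` -/
noncomputable def xJ (N l : ℕ) (c : ℝ) (g : Pair n → ℝ) : ℝ :=
  Lf S t2 m σ l (JJ S t2 m σ l (H693.QR S t2 m σ N (c • g))) (N - l) (c • g)

/-- `E tr (Y C C_l C)` -/
noncomputable def xK (N l : ℕ) (c : ℝ) (g : Pair n → ℝ) : ℝ :=
  Lf S t2 m σ l (KK3 S t2 m σ l (H693.QR S t2 m σ N (c • g))) (N - l) (c • g)

/-- `E |C_l|² tr (Y C²)` -/
noncomputable def xR (N l : ℕ) (c : ℝ) (g : Pair n → ℝ) : ℝ :=
  Lf S t2 m σ l (RR3 S t2 m σ l (H693.QR S t2 m σ N (c • g))) (N - l) (c • g)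

variable {S t2 m σ}

lemma eg_xA3 {N : ℕ} (hN : Pm m N) (c : ℝ) : EG (xA3 S t2 m σ N c) := by
  have hm0 : Pm m (0 + N) := by rwa [Nat.zero_add]
  have h := eg_B (S := S) (t2 := t2) (σ := σ) hN hm0
    (f := fun i j u => ∑ b, H693.A2 S t2 i b u * S.A t2 u b j)
    (fun i j => EG.sum _ fun b _ => (H693.eg_A2 S t2 i b).mul (S.eg_A t2 b j)) c
  have e1 : xA3 S t2 m σ N c = fun g => Lf S t2 m σ 0 (fun u => ∑ i, ∑ j,
      H693.QR S t2 m σ N (c • g) i j * ∑ b, H693.A2 S t2 i b u * S.A t2 u b j) N (c • g) := by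
    funext g
    unfold xA3
    rw [Tl_eq_Lf]
    have e : T3 S t2 (H693.QR S t2 m σ N (c • g)) = fun u => ∑ i, ∑ j,
        H693.QR S t2 m σ N (c • g) i j * ∑ b, H693.A2 S t2 i b u * S.A t2 u b j :=
      funext fun u => T3_eq S t2 _ u
    rw [e]
  rw [e1]
  exact h

lemma eg_xJ {N l : ℕ} (hN : Pm m N) (hl : l ≤ N) (c : ℝ) : EG (xJ S t2 m σ N l c) :=
  eg_B (S := S) (t2 := t2) (σ := σ) hN (hN.mono (by omega))
    (f := fun i j u => ∑ b, Gl S t2 m σ l i b u * H693.Cl S t2 m σ l b j u)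
    (fun i j => EG.sum _ fun b _ => (eg_Gl l (hN.mono hl) i b).mul
      (eg_Cl l (hN.mono hl) b j)) c

lemma eg_kf {l : ℕ} (hm : Pm m l) (i j : Fin n) : EG fun u => ∑ b, ∑ c,
    H693.Cl S t2 m σ l b c u * Tl S t2 m σ (fun v => S.A t2 v i b * S.A t2 v c j) l u :=
  EG.sum _ fun b _ => EG.sum _ fun c _ => (eg_Cl l hm b c).mul
    (eg_Tl ((S.eg_A t2 i b).mul (S.eg_A t2 c j)) l hm)

lemma eg_xK {N l : ℕ} (hN : Pm m N) (hl : l ≤ N) (c : ℝ) : EG (xK S t2 m σ N l c) :=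
  eg_B (S := S) (t2 := t2) (σ := σ) hN (hN.mono (by omega))
    (f := fun i j u => ∑ b, ∑ c, H693.Cl S t2 m σ l b c u *
      Tl S t2 m σ (fun v => S.A t2 v i b * S.A t2 v c j) l u)
    (fun i j => eg_kf (hN.mono hl) i j) c

lemma eg_cl2 {l : ℕ} (hm : Pm m l) : EG fun u => ∑ i, ∑ j, H693.Cl S t2 m σ l i j u ^ 2 :=
  EG.sum _ fun i _ => EG.sum _ fun j _ => (eg_Cl l hm i j).pow 2

lemma RR3_eq (l : ℕ) (M : Matrix (Fin n) (Fin n) ℝ) : RR3 S t2 m σ l M = fun u =>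
    ∑ i, ∑ j, M i j * ((∑ i, ∑ j, H693.Cl S t2 m σ l i j u ^ 2) * Gl S t2 m σ l i j u) := by
  funext u
  unfold RR3
  rw [Finset.mul_sum]
  refine Finset.sum_congr rfl fun i _ => ?_
  rw [Finset.mul_sum]
  exact Finset.sum_congr rfl fun j _ => by ring

lemma eg_xR {N l : ℕ} (hN : Pm m N) (hl : l ≤ N) (c : ℝ) : EG (xR S t2 m σ N l c) := by
  have h := eg_B (S := S) (t2 := t2) (σ := σ) hN (l := l) (d := N - l) (hN.mono (by omega))
    (f := fun i j u => (∑ i, ∑ j, H693.Cl S t2 m σ l i j u ^ 2) * Gl S t2 m σ l i j u)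
    (fun i j => (eg_cl2 (hN.mono hl)).mul (eg_Gl l (hN.mono hl) i j)) c
  have e1 : xR S t2 m σ N l c = fun g => Lf S t2 m σ l (fun u => ∑ i, ∑ j,
      H693.QR S t2 m σ N (c • g) i j * ((∑ i, ∑ j, H693.Cl S t2 m σ l i j u ^ 2) *
        Gl S t2 m σ l i j u)) (N - l) (c • g) := by
    funext g
    unfold xR
    rw [RR3_eq]
  rw [e1]
  exact h

lemma eg_fr {N : ℕ} (hN : Pm m N) (c : ℝ) : EG fun g => fr (H693.QR S t2 m σ N (c • g)) := by
  unfold fr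
  exact EG.sum _ fun i _ => EG.sum _ fun j _ => (H693.eg_scale (eg_QR N hN i j) c).pow 2

/-- the Cauchy-Schwarz inequality at a base point -/
lemma quad_3 {N l : ℕ} (hN : Pm m N) (hl : l ≤ N) (c s : ℝ) (g : Pair n → ℝ) :
    0 ≤ xA3 S t2 m σ N c g - 2 * s * xJ S t2 m σ N l c g + s ^ 2 * xK S t2 m σ N l c g := by
  obtain ⟨M, hMd⟩ : ∃ M, M = H693.QR S t2 m σ N (c • g) := ⟨_, rfl⟩
  have hM : Psd M := by rw [hMd]; exact QR_psd N hN _
  have hml : Pm m l := hN.mono hl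
  have hmd : Pm m (l + (N - l)) := hN.mono (by omega)
  have h0 := Lf_nonneg (S := S) (t2 := t2) (m := m) (σ := σ) (l := l)
    (fun u => quad_2 (S := S) (t2 := t2) (σ := σ) l hml hM u s) (N - l) (c • g)
  have g0 : EG (Tl S t2 m σ (T3 S t2 M) l) := eg_Tl (eg_T3 S t2 M) l hml
  have g1 : EG (JJ S t2 m σ l M) := eg_JJ l hml M
  have g2 : EG (KK3 S t2 m σ l M) := EG.sum _ fun i _ => EG.sum _ fun j _ =>
    (eg_kf hml i j).const_mul _
  rw [Lf_add g0 ((g1.const_mul _).add (g2.const_mul _)) _ hmd] at h0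
  simp only at h0
  rw [Lf_add (g1.const_mul _) (g2.const_mul _) _ hmd, Lf_const_mul, Lf_const_mul, Lf_Tl] at h0
  simp only at h0
  rw [show l + (N - l) = N by omega] at h0
  unfold xA3 xJ xK
  rw [← hMd]
  linarith

/-- `J² ≤ A₃ K`, integrated -/
theorem cs_gen {N l : ℕ} (hN : Pm m N) (hl : l ≤ N) (c : ℝ) :
    (∫ g, xJ S t2 m σ N l c g ∂(gI (Pair n))) ^ 2 ≤
      (∫ g, xA3 S t2 m σ N c g ∂(gI (Pair n))) * ∫ g, xK S t2 m σ N l c g ∂(gI (Pair n)) := by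
  refine H941.disc_le fun s => ?_
  have i0 := (eg_xA3 (S := S) (t2 := t2) (σ := σ) hN c).integrable
  have i1 := (eg_xJ (S := S) (t2 := t2) (σ := σ) hN hl c).integrable
  have i2 := (eg_xK (S := S) (t2 := t2) (σ := σ) hN hl c).integrable
  rw [← H941.int3 i0 i1 i2 (2 * s) (s ^ 2)]
  exact integral_nonneg fun g => quad_3 hN hl c s g

/-- the operator bound at a position -/
lemma op_pt {M A B : Matrix (Fin n) (Fin n) ℝ} (hM : Psd M) (hA : Psd A) (hB : Psd B) (s : ℝ) :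
    0 ≤ (∑ i, ∑ j, B i j ^ 2) * (∑ i, ∑ j, M i j * ∑ l, A i l * A l j) +
      ((-2 * s) * (∑ i, ∑ j, M i j * ∑ b, ∑ c, B b c * (A i b * A c j)) +
      s ^ 2 * ∑ i, ∑ j, M i j * ∑ l, A i l * A l j) := by
  have h1 := H941.tr_op_le B (posS hM) hA.1
  have h2 := aba_nonneg hM hA hB
  rw [tr_sum hM.1, tr_sum hM.1] at h1
  simp only [e_ABA] at h1
  have h3 : ∀ i j, (A * A) i j = ∑ l, A i l * A l j := fun i j => Matrix.mul_apply
  simp only [h3] at h1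
  have h4 : 0 ≤ ∑ i, ∑ j, M i j * ∑ l, A i l * A l j := by
    have h5 : (A * A).PosSemidef := by
      have h := Matrix.PosSemidef.one.mul_mul_conjTranspose_same (n := Fin n) (R := ℝ) A
      rwa [Matrix.conjTranspose_eq_transpose_of_trivial, hA.1, Matrix.mul_one] at h
    have h6 := H941.tr_mul_nonneg (posS hM) h5
    rw [tr_sum hM.1] at h6
    simp only [h3] at h6
    exact h6
  obtain ⟨a, ha⟩ : ∃ a, a = ∑ i, ∑ j, M i j * ∑ l, A i l * A l j := ⟨_, rfl⟩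
  obtain ⟨q, hq⟩ : ∃ q, q = ∑ i, ∑ j, M i j * ∑ b, ∑ c, B b c * (A i b * A c j) := ⟨_, rfl⟩
  have hf : H941.fro B ^ 2 = ∑ i, ∑ j, B i j ^ 2 := by
    unfold H941.fro
    exact Real.sq_sqrt (Finset.sum_nonneg fun i _ => Finset.sum_nonneg fun j _ => sq_nonneg _)
  rw [← hf]
  rw [← ha] at h1 h4 ⊢
  rw [← hq] at h1 h2 ⊢
  obtain ⟨f, hf'⟩ : ∃ f, f = H941.fro B := ⟨_, rfl⟩
  have hf0 : 0 ≤ f := by rw [hf']; exact H941.fro_nonneg B
  rw [← hf'] at h1 ⊢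
  rcases le_total 0 s with hs | hs
  · have h7 : 0 ≤ (f - s) ^ 2 * a := mul_nonneg (sq_nonneg _) h4
    nlinarith [mul_nonneg hs (sub_nonneg.2 h1)]
  · nlinarith [mul_nonneg (neg_nonneg.2 hs) h2, mul_nonneg (sq_nonneg f) h4,
      mul_nonneg (sq_nonneg s) h4]

/-- the operator bound at the position below the layer `l` -/
lemma op_1 (l : ℕ) (hm : Pm m l) {M : Matrix (Fin n) (Fin n) ℝ} (hM : Psd M)
    (u : Pair n → ℝ) (s : ℝ) :
    0 ≤ RR3 S t2 m σ l M u + ((-2 * s) * KK3 S t2 m σ l M u +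
      s ^ 2 * ∑ i, ∑ j, M i j * Gl S t2 m σ l i j u) := by
  have hm0 : Pm m (0 + l) := by rwa [Nat.zero_add]
  have h0 := Lf_nonneg (S := S) (t2 := t2) (m := m) (σ := σ) (l := 0)
    (fun v => op_pt hM (S.psd_A t2 v) (Cl_psd (S := S) (t2 := t2) (σ := σ) l hm u) s) l u
  have g1 : ∀ i j : Fin n, EG fun v : Pair n → ℝ => ∑ l, S.A t2 v i l * S.A t2 v l j :=
    fun i j => H693.eg_A2 S t2 i j
  have g2 : ∀ i j, EG fun v' : Pair n → ℝ => ∑ b, ∑ c, H693.Cl S t2 m σ l b c u *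
      (S.A t2 v' i b * S.A t2 v' c j) := fun i j =>
    EG.sum _ fun b _ => EG.sum _ fun c _ => ((S.eg_A t2 i b).mul (S.eg_A t2 c j)).const_mul _
  have g1' : EG fun v : Pair n → ℝ => ∑ i, ∑ j, M i j * ∑ l, S.A t2 v i l * S.A t2 v l j :=
    EG.sum _ fun i _ => EG.sum _ fun j _ => (g1 i j).const_mul _
  have g2' : EG fun v' : Pair n → ℝ => ∑ i, ∑ j, M i j * ∑ b, ∑ c, H693.Cl S t2 m σ l b c u *
      (S.A t2 v' i b * S.A t2 v' c j) :=
    EG.sum _ fun i _ => EG.sum _ fun j _ => (g2 i j).const_mul _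
  rw [Lf_add (g1'.const_mul _) ((g2'.const_mul _).add (g1'.const_mul _)) l hm0,
    Lf_const_mul] at h0
  simp only at h0
  rw [Lf_add (g2'.const_mul _) (g1'.const_mul _) l hm0, Lf_const_mul, Lf_const_mul] at h0
  simp only at h0
  have e1 : Lf S t2 m σ 0 (fun v => ∑ i, ∑ j, M i j * ∑ l, S.A t2 v i l * S.A t2 v l j) l u =
      ∑ i, ∑ j, M i j * Gl S t2 m σ l i j u := by
    rw [Lf_qf hm0 M g1]
    refine Finset.sum_congr rfl fun i _ => Finset.sum_congr rfl fun j _ => ?_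
    rw [← Tl_eq_Lf]
    rfl
  have e2 : Lf S t2 m σ 0 (fun v' => ∑ i, ∑ j, M i j * ∑ b, ∑ c, H693.Cl S t2 m σ l b c u *
      (S.A t2 v' i b * S.A t2 v' c j)) l u = KK3 S t2 m σ l M u := by
    rw [KK3_eq l hm, Tl_eq_Lf]
  rw [e1, e2] at h0
  exact h0

lemma fr_eq {N l : ℕ} (hN : Pm m N) (hl : l ≤ N) (c : ℝ) (g : Pair n → ℝ) :
    Lf S t2 m σ l (fun u => ∑ i, ∑ j, H693.QR S t2 m σ N (c • g) i j * Gl S t2 m σ l i j u) (N - l)
      (c • g) = fr (H693.QR S t2 m σ N (c • g)) := by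
  rw [Lf_qf (hN.mono (by omega)) _ fun i j => eg_Gl l (hN.mono hl) i j]
  unfold fr
  refine Finset.sum_congr rfl fun i _ => Finset.sum_congr rfl fun j _ => ?_
  unfold Gl
  rw [Lf_Tl, show l + (N - l) = N by omega, _root_.sq]
  rfl

lemma op_2 {N l : ℕ} (hN : Pm m N) (hl : l ≤ N) (c s : ℝ) (g : Pair n → ℝ) :
    0 ≤ xR S t2 m σ N l c g - 2 * s * xK S t2 m σ N l c g +
      s ^ 2 * fr (H693.QR S t2 m σ N (c • g)) := by
  rw [← fr_eq (S := S) (t2 := t2) (σ := σ) hN hl c g]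
  obtain ⟨M, hMd⟩ : ∃ M, M = H693.QR S t2 m σ N (c • g) := ⟨_, rfl⟩
  have hM : Psd M := by rw [hMd]; exact QR_psd N hN _
  have hml : Pm m l := hN.mono hl
  have hmd : Pm m (l + (N - l)) := hN.mono (by omega)
  have h0 := Lf_nonneg (S := S) (t2 := t2) (m := m) (σ := σ) (l := l)
    (fun u => op_1 (S := S) (t2 := t2) (σ := σ) l hml hM u s) (N - l) (c • g)
  have g0 : EG (RR3 S t2 m σ l M) := by
    rw [RR3_eq]
    exact EG.sum _ fun i _ => EG.sum _ fun j _ =>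
      ((eg_cl2 hml).mul (eg_Gl l hml i j)).const_mul _
  have g1 : EG fun u => ∑ i, ∑ j, M i j * Gl S t2 m σ l i j u :=
    EG.sum _ fun i _ => EG.sum _ fun j _ => (eg_Gl l hml i j).const_mul _
  have g2 : EG (KK3 S t2 m σ l M) := EG.sum _ fun i _ => EG.sum _ fun j _ =>
    (eg_kf hml i j).const_mul _
  rw [Lf_add g0 ((g2.const_mul _).add (g1.const_mul _)) _ hmd] at h0
  simp only at h0
  rw [Lf_add (g2.const_mul _) (g1.const_mul _) _ hmd, Lf_const_mul, Lf_const_mul] at h0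
  simp only at h0
  unfold xR xK
  rw [← hMd]
  linarith

/-- `K² ≤ R A`, integrated -/
theorem ka_gen {N l : ℕ} (hN : Pm m N) (hl : l ≤ N) (c : ℝ) :
    (∫ g, xK S t2 m σ N l c g ∂(gI (Pair n))) ^ 2 ≤
      (∫ g, xR S t2 m σ N l c g ∂(gI (Pair n))) *
        ∫ g, fr (H693.QR S t2 m σ N (c • g)) ∂(gI (Pair n)) := by
  refine H941.disc_le fun s => ?_
  have i0 := (eg_xR (S := S) (t2 := t2) (σ := σ) hN hl c).integrable
  have i1 := (eg_xK (S := S) (t2 := t2) (σ := σ) hN hl c).integrable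
  have i2 := (eg_fr (S := S) (t2 := t2) (σ := σ) hN c).integrable
  rw [← H941.int3 i0 i1 i2 (2 * s) (s ^ 2)]
  exact integral_nonneg fun g => op_2 hN hl c s g

lemma xK_nonneg {N l : ℕ} (hN : Pm m N) (hl : l ≤ N) (c : ℝ) (g : Pair n → ℝ) :
    0 ≤ xK S t2 m σ N l c g :=
  Lf_nonneg (fun u => KK3_nonneg l (hN.mono hl) (QR_psd N hN _) u) _ _

lemma xA3_nonneg {N : ℕ} (hN : Pm m N) (c : ℝ) (g : Pair n → ℝ) : 0 ≤ xA3 S t2 m σ N c g :=
  TP_nonneg (fun v => T3_nonneg (QR_psd N hN _) v) _ _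

/-- `|Y|² ≥ n` -/
lemma fr_ge {N : ℕ} (hN : Pm m N) (z : Pair n → ℝ) : (n : ℝ) ≤ fr (H693.QR S t2 m σ N z) := by
  have h1 : ∀ i, 1 ≤ H693.QR S t2 m σ N z i i := by
    intro i
    have h2 := TP_nonneg (F := uu x t2 S.F) (m := m) (σ := σ)
      (φ := fun u => H693.A2 S t2 i i u + (-1)) (fun u => by
        have h3 : (1 : ℝ) ≤ H693.A2 S t2 i i u := by
          unfold H693.A2
          have h4 : ∀ l ∈ (Finset.univ : Finset (Fin n)), 0 ≤ S.A t2 u i l * S.A t2 u l i := by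
            intro l _
            rw [S.A_comm t2 u l i]
            exact mul_self_nonneg _
          have h5 := Finset.single_le_sum h4 (Finset.mem_univ i)
          rw [S.A_self] at h5
          linarith
        linarith) N z
    rw [TP_add hU (H693.eg_A2 S t2 i i) (EG.const _) N hN, TP_const hU (-1) N hN] at h2
    have h6 : H693.QR S t2 m σ N z i i = TD (uu x t2 S.F) m σ (H693.A2 S t2 i i) N z := rfl
    rw [h6]
    simp only at h2
    linarith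
  unfold fr
  have h7 : ∀ i ∈ (Finset.univ : Finset (Fin n)), (1 : ℝ) ≤ ∑ j, H693.QR S t2 m σ N z i j ^ 2 := by
    intro i _
    have h8 := Finset.single_le_sum (f := fun j => H693.QR S t2 m σ N z i j ^ 2)
      (fun j _ => sq_nonneg _) (Finset.mem_univ i)
    refine le_trans ?_ h8
    have h9 := h1 i
    have h10 : (1 : ℝ) ≤ (H693.QR S t2 m σ N z i i) ^ 2 := by nlinarith
    exact h10
  refine le_trans ?_ (Finset.sum_le_sum h7)
  simp

/-! ### the rows of `R2Spec` -/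

variable {p : Tw}

lemma pm3 (hx : 0 < p.x) (hy : 0 < p.y) : Pm p.m 3 := by
  intro j hj
  match j, hj with
  | 0, _ => exact hx
  | 1, _ => exact hy
  | j + 2, hj => omega

/-- the rows `cs1`, `cs2` -/
theorem cs_row (hx : 0 < p.x) (hy : 0 < p.y) {l : ℕ} (hl : l ≤ 3) :
    nJ S p l ^ 2 ≤ nA3 S p * nK S p l :=
  cs_gen (S := S) (t2 := p.t2) (σ := p.σ) (pm3 hx hy) hl (√p.t0)

/-- the row `ka` -/
theorem ka_row (hx : 0 < p.x) (hy : 0 < p.y) {l : ℕ} (hl : l ≤ 3) :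
    nK S p l ^ 2 ≤ nR S p l * nA S p :=
  ka_gen (S := S) (t2 := p.t2) (σ := p.σ) (pm3 hx hy) hl (√p.t0)

theorem nK_nonneg (hx : 0 < p.x) (hy : 0 < p.y) {l : ℕ} (hl : l ≤ 3) : 0 ≤ nK S p l :=
  integral_nonneg fun g => xK_nonneg (S := S) (t2 := p.t2) (σ := p.σ) (pm3 hx hy) hl (√p.t0) g

theorem nA3_nonneg (hx : 0 < p.x) (hy : 0 < p.y) : 0 ≤ nA3 S p :=
  integral_nonneg fun g => xA3_nonneg (S := S) (t2 := p.t2) (σ := p.σ) (pm3 hx hy) (√p.t0) g

theorem nA_ge (hx : 0 < p.x) (hy : 0 < p.y) : (n : ℝ) ≤ nA S p := by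
  have h : ∫ _, (n : ℝ) ∂(gI (Pair n)) ≤ nA S p :=
    integral_mono (integrable_const _) (eg_fr (S := S) (t2 := p.t2) (σ := p.σ) (pm3 hx hy)
      (√p.t0)).integrable fun g => fr_ge (pm3 hx hy) _
  simpa using h

theorem nA_pos (hx : 0 < p.x) (hy : 0 < p.y) (hn : 0 < n) : 0 < nA S p :=
  lt_of_lt_of_le (by exact_mod_cast hn) (nA_ge hx hy)

end Vale.Agent.P146.H461
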