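import Vale.Agent.P146.H501.Interp
import Vale.Agent.P146.H605.Small
import Vale.Agent.P146.H605.Gauge

/-!
# P146: comparison for two correlated copies of the disorder

`E [e^{a₀·g} Z_a(g)^{κ₁} Z_b(g)^κ] ≤ exp(κ (c₁ - κ₁ c₂)) E [e^{a₀·g} Z_a(g)^{κ₁}] E [Z_b(g)^κ]` when
`⟨a₀, b_t⟩ ≤ c₁`, `⟨a_s, b_t⟩ ≥ -c₂`, `κ₁ ≤ 0 ≤ κ`.
-/

open MeasureTheory ProbabilityTheory

namespace Vale.Agent.P146.H461

open Vale.Agent.P146 Vale.Agent.P146.H501

section gen

variable {ι T : Type*} [Fintype ι] [DecidableEq ι] [Fintype T] [Nonempty T]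

/-- derivative along a path which does not change the covariance of the second factor -/
theorem deriv_mul (κ : ℝ) {W : (ι → ℝ) → ℝ} {W' : ι → (ι → ℝ) → ℝ} (hW : Dom W)
    (hW' : ∀ i, Dom (W' i))
    (hd : ∀ i g t, HasDerivAt (fun t => W (Function.update g i t))
      (W' i (Function.update g i t)) t)
    {a a' : ℝ → T → ι → ℝ} {c : T → ℝ} {A A' : ℝ}
    (ha : ∀ θ s i, HasDerivAt (fun θ => a θ s i) (a' θ s i) θ)
    (hA : ∀ θ s i, |a θ s i| ≤ A) (hA' : ∀ θ s i, |a' θ s i| ≤ A')
    (ho : ∀ θ s t, ∑ i, a' θ s i * a θ t i = 0) (θ : ℝ) :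
    HasDerivAt (fun θ => ∫ g, W g * zp κ (a θ) c g ∂(gpi ι))
      (∫ g, κ * (zp κ (a θ) c g * ∑ i, W' i g * gav (a θ) c (fun s => a' θ s i) g) ∂(gpi ι)) θ := by
  have hD : ∀ θ, Dom (fun g => W g * (κ * (zp κ (a θ) c g *
      ∑ i, g i * gav (a θ) c (fun s => a' θ s i) g))) := fun θ =>
    hW.mul (((zp_dom κ (a θ) c).mul (Dom.sum _ fun i _ =>
      (Dom.coord i).mul (gav_dom (a θ) c _))).const_mul κ)
  have e0 : ∫ g, κ * (zp κ (a θ) c g * ∑ i, W' i g * gav (a θ) c (fun s => a' θ s i) g)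
      ∂(gpi ι) = ∫ g, W g * (κ * (zp κ (a θ) c g *
        ∑ i, g i * gav (a θ) c (fun s => a' θ s i) g)) ∂(gpi ι) := by
    have d1 : ∀ i, Dom (fun g : ι → ℝ =>
        W g * (zp κ (a θ) c g * gav (a θ) c (fun s => a' θ s i) g)) := fun i =>
      hW.mul ((zp_dom κ (a θ) c).mul (gav_dom (a θ) c _))
    have d2 : ∀ i, Dom (fun g : ι → ℝ =>
        W' i g * (zp κ (a θ) c g * gav (a θ) c (fun s => a' θ s i) g) +
        W g * (zp κ (a θ) c g * (gav (a θ) c (fun s => a' θ s i * a θ s i) g -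
        (1 - κ) * (gav (a θ) c (fun s => a' θ s i) g *
          gav (a θ) c (fun s => a θ s i) g)))) := fun i =>
      ((hW' i).mul ((zp_dom κ (a θ) c).mul (gav_dom (a θ) c _))).add
        (hW.mul ((zp_dom κ (a θ) c).mul ((gav_dom (a θ) c _).sub
          (((gav_dom (a θ) c _).mul (gav_dom (a θ) c _)).const_mul _))))
    have h1 : ∀ i, ∫ g, g i * (W g * (zp κ (a θ) c g *
        gav (a θ) c (fun s => a' θ s i) g)) ∂(gpi ι) = ∫ g,
        (W' i g * (zp κ (a θ) c g * gav (a θ) c (fun s => a' θ s i) g) +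
        W g * (zp κ (a θ) c g * (gav (a θ) c (fun s => a' θ s i * a θ s i) g -
        (1 - κ) * (gav (a θ) c (fun s => a' θ s i) g *
          gav (a θ) c (fun s => a θ s i) g)))) ∂(gpi ι) := by
      intro i
      refine ibp i (d1 i) (d2 i) fun g t => ?_
      refine ((hd i g t).mul ((hasDerivAt_zp κ (a θ) c g i t).mul
        (hasDerivAt_gav (a θ) c (fun s => a' θ s i) g i t))).congr_deriv ?_
      simp only [Pi.mul_apply]
      ring
    have e1 : ∀ g : ι → ℝ, W g * (κ * (zp κ (a θ) c g *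
        ∑ i, g i * gav (a θ) c (fun s => a' θ s i) g)) =
        κ * ∑ i, g i * (W g * (zp κ (a θ) c g * gav (a θ) c (fun s => a' θ s i) g)) := by
      intro g
      rw [Finset.mul_sum, Finset.mul_sum, Finset.mul_sum, Finset.mul_sum]
      exact Finset.sum_congr rfl fun i _ => by ring
    simp_rw [e1]
    rw [integral_const_mul, integral_const_mul, int_sum _ fun i _ => (Dom.coord i).mul (d1 i)]
    simp_rw [h1]
    rw [← int_sum _ fun i _ => d2 i]
    congr 1
    refine integral_congr_ae (Filter.Eventually.of_forall fun g => ?_)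
    simp only
    rw [Finset.sum_add_distrib, ← Finset.mul_sum, ← Finset.mul_sum, Finset.sum_sub_distrib,
      ← Finset.mul_sum, ← gav_sum]
    have z1 : gav (a θ) c (fun s => ∑ i, a' θ s i * a θ s i) g = 0 := by
      have : (fun s => ∑ i, a' θ s i * a θ s i) = fun _ => (0 : ℝ) := by
        funext s; exact ho θ s s
      rw [this]
      exact gav_const _ _ 0 g
    have z2 : ∑ i, gav (a θ) c (fun s => a' θ s i) g * gav (a θ) c (fun s => a θ s i) g = 0 := by
      have e2 : ∀ i, gav (a θ) c (fun s => a' θ s i) g * gav (a θ) c (fun s => a θ s i) g =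
          gav (a θ) c (fun t => gav (a θ) c (fun s => a' θ s i * a θ t i) g) g := by
        intro i
        have e3 : ∀ t, gav (a θ) c (fun s => a' θ s i * a θ t i) g =
            gav (a θ) c (fun s => a' θ s i) g * a θ t i := by
          intro t
          have := gav_const_mul (a θ) c (a θ t i) (fun s => a' θ s i) g
          rw [mul_comm, ← this]
          congr 1
          funext s
          ring
        simp_rw [e3]
        rw [gav_const_mul]
      simp_rw [e2]
      rw [← gav_sum]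
      have e4 : (fun t => ∑ i, gav (a θ) c (fun s => a' θ s i * a θ t i) g) =
          fun _ => (0 : ℝ) := by
        funext t
        rw [← gav_sum]
        have : (fun s => ∑ i, a' θ s i * a θ t i) = fun _ => (0 : ℝ) := by
          funext s; exact ho θ s t
        rw [this]
        exact gav_const _ _ 0 g
      rw [e4]
      exact gav_const _ _ 0 g
    rw [z1, z2, Finset.mul_sum]
    simp only [mul_zero, sub_zero, add_zero]
    exact Finset.sum_congr rfl fun i _ => by ring
  rw [e0]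
  obtain ⟨C, cW, hC, hcW, hbW⟩ := hW.bound
  set M := Real.exp (|κ| * (Fintype.card T * (∑ s, |c s|) + Real.log (Fintype.card T))) with hM
  set K := |κ| * (Fintype.card T * (Fintype.card ι * |A|)) with hK
  have hK0 : 0 ≤ K := by positivity
  have hcb : ∀ s, |c s| ≤ ∑ s, |c s| := fun s =>
    Finset.single_le_sum (f := fun s => |c s|) (fun i _ => abs_nonneg _) (Finset.mem_univ s)
  have hbd : ∀ θ g, zp κ (a θ) c g ≤ M * Real.exp (K * ∑ i, |g i|) := fun θ g =>
    zp_le κ (fun s i => (hA θ s i).trans (le_abs_self A)) hcb g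
  have key := hasDerivAt_integral_of_dominated_loc_of_deriv_le (μ := gpi ι) (𝕜 := ℝ)
    (F := fun θ (g : ι → ℝ) => W g * zp κ (a θ) c g)
    (F' := fun θ g => W g * (κ * (zp κ (a θ) c g *
      ∑ i, g i * gav (a θ) c (fun s => a' θ s i) g))) (x₀ := θ)
    (s := Metric.ball θ 1)
    (bound := fun g => (C * Real.exp (cW * ∑ i, |g i|)) *
      (|κ| * ((M * Real.exp (K * ∑ j, |g j|)) * (|A'| * ∑ j, |g j|))))
    (Metric.ball_mem_nhds θ one_pos)
    (Filter.Eventually.of_forall fun y => (hW.mul (zp_dom κ (a y) c)).cont.aestronglyMeasurable)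
    (hW.mul (zp_dom κ (a θ) c)).integrable
    (hD θ).cont.aestronglyMeasurable
    (Filter.Eventually.of_forall fun g y _ => by
      rw [Real.norm_eq_abs, abs_mul, abs_mul, abs_mul, abs_of_pos (zp_pos κ (a y) c g)]
      have hS := sum_abs_nonneg g
      have q1 : |∑ i, g i * gav (a y) c (fun s => a' y s i) g| ≤ |A'| * ∑ j, |g j| := by
        refine (Finset.abs_sum_le_sum_abs _ _).trans ?_
        rw [Finset.mul_sum]
        refine Finset.sum_le_sum fun i _ => ?_
        rw [abs_mul, mul_comm]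
        exact mul_le_mul_of_nonneg_right (abs_gav_le _ _
          (fun s => (hA' y s i).trans (le_abs_self A')) g) (abs_nonneg _)
      exact mul_le_mul (hbW g) (mul_le_mul_of_nonneg_left (mul_le_mul (hbd y g) q1 (abs_nonneg _)
        (by positivity)) (abs_nonneg κ)) (mul_nonneg (abs_nonneg _) (mul_nonneg
          (zp_pos _ _ _ _).le (abs_nonneg _))) (by positivity))
    (by
      have hd : Dom (fun g : ι → ℝ => (C * Real.exp (cW * ∑ i, |g i|)) *
          (|κ| * ((M * Real.exp (K * ∑ j, |g j|)) * (|A'| * ∑ j, |g j|)))) := by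
        have d0 : Dom (fun g : ι → ℝ => C * Real.exp (cW * ∑ i, |g i|)) := by
          refine ⟨by fun_prop, C, cW, hC, hcW, fun g => ?_⟩
          rw [abs_of_nonneg (by positivity)]
        have d1 : Dom (fun g : ι → ℝ => M * Real.exp (K * ∑ i, |g i|)) := by
          refine ⟨by fun_prop, M, K, (Real.exp_pos _).le, hK0, fun g => ?_⟩
          rw [abs_of_nonneg (by positivity)]
        have d2 : Dom (fun g : ι → ℝ => ∑ i, |g i|) := by
          refine ⟨by fun_prop, 1, 1, zero_le_one, zero_le_one, fun g => ?_⟩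
          rw [abs_of_nonneg (sum_abs_nonneg g), one_mul, one_mul]
          have := Real.add_one_le_exp (∑ i, |g i|)
          linarith
        exact d0.mul ((d1.mul (d2.const_mul |A'|)).const_mul |κ|)
      exact hd.integrable)
    (Filter.Eventually.of_forall fun g y _ => by
      have := (hasDerivAt_path κ (ha y) (c := fun _ => c) (c' := fun _ => 0)
        (fun s => hasDerivAt_const y (c s)) g).const_mul (W g)
      refine this.congr_deriv ?_
      have z : gav (a y) c (fun _ => (0 : ℝ)) g = 0 := gav_const _ _ 0 g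
      simp only [z, add_zero])
  exact key.2

end gen

section two

variable {ι S T : Type*} [Fintype ι] [DecidableEq ι] [Fintype S] [Nonempty S] [Fintype T]
  [Nonempty T]

/-- the coefficients of the first copy -/
noncomputable def lf (a : S → ι → ℝ) (s : S) : ι ⊕ ι → ℝ := Sum.elim (a s) fun _ => 0

/-- the coefficients of the rotated copy -/
noncomputable def rt (b : T → ι → ℝ) (θ : ℝ) (t : T) : ι ⊕ ι → ℝ :=
  Sum.elim (fun e => Real.cos θ * b t e) fun e => Real.sin θ * b t e

/-- their derivative -/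
noncomputable def rt' (b : T → ι → ℝ) (θ : ℝ) (t : T) : ι ⊕ ι → ℝ :=
  Sum.elim (fun e => -Real.sin θ * b t e) fun e => Real.cos θ * b t e

omit [DecidableEq ι] [Fintype S] [Nonempty S] [Fintype T] [Nonempty T] in
lemma sum_lf_rt' (a : S → ι → ℝ) (b : T → ι → ℝ) (θ : ℝ) (s : S) (t : T) :
    ∑ i, lf a s i * rt' b θ t i = -Real.sin θ * ∑ e, a s e * b t e := by
  rw [Fintype.sum_sum_type, Finset.mul_sum]
  simp only [lf, rt', Sum.elim_inl, Sum.elim_inr, zero_mul, Finset.sum_const_zero, add_zero]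
  exact Finset.sum_congr rfl fun e _ => by ring

omit [DecidableEq ι] [Fintype T] [Nonempty T] in
lemma sum_rt_rt' (b : T → ι → ℝ) (θ : ℝ) (s t : T) : ∑ i, rt' b θ s i * rt b θ t i = 0 := by
  rw [Fintype.sum_sum_type, ← Finset.sum_add_distrib]
  simp only [rt, rt', Sum.elim_inl, Sum.elim_inr]
  exact Finset.sum_eq_zero fun e _ => by ring

omit [Nonempty S] [DecidableEq ι] in
lemma zp_lf (κ : ℝ) (a : S → ι → ℝ) (c : S → ℝ) (g : ι ⊕ ι → ℝ) :
    zp κ (lf a) c g = zp κ a c fun e => g (Sum.inl e) := by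
  unfold zp zz wt
  congr 3
  refine Finset.sum_congr rfl fun s _ => ?_
  rw [Fintype.sum_sum_type]
  simp [lf]

omit [Nonempty T] [DecidableEq ι] in
lemma zp_rt_zero (κ : ℝ) (b : T → ι → ℝ) (c : T → ℝ) (g : ι ⊕ ι → ℝ) :
    zp κ (rt b 0) c g = zp κ b c fun e => g (Sum.inl e) := by
  unfold zp zz wt
  congr 3
  refine Finset.sum_congr rfl fun s _ => ?_
  rw [Fintype.sum_sum_type]
  simp [rt]

omit [Nonempty T] [DecidableEq ι] in
lemma zp_rt_pi (κ : ℝ) (b : T → ι → ℝ) (c : T → ℝ) (g : ι ⊕ ι → ℝ) :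
    zp κ (rt b (Real.pi / 2)) c g = zp κ b c fun e => g (Sum.inr e) := by
  unfold zp zz wt
  congr 3
  refine Finset.sum_congr rfl fun s _ => ?_
  rw [Fintype.sum_sum_type]
  simp [rt]

omit [DecidableEq ι] in
lemma int_sum_prod (f h : (ι → ℝ) → ℝ) :
    ∫ g : ι ⊕ ι → ℝ, f (fun e => g (Sum.inl e)) * h (fun e => g (Sum.inr e)) ∂(gpi (ι ⊕ ι)) =
      (∫ u, f u ∂(gpi ι)) * ∫ v, h v ∂(gpi ι) := by
  have hmp := measurePreserving_sumPiEquivProdPi (X := fun _ : ι ⊕ ι => ℝ)
    (fun _ => gaussianReal 0 1)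
  rw [← integral_prod_mul]
  have := hmp.integral_comp (MeasurableEquiv.measurableEmbedding _)
    (fun p : (ι → ℝ) × (ι → ℝ) => f p.1 * h p.2)
  exact this

/-- **The comparison of two correlated copies.** -/
theorem cmp_gen {κ κ₁ c₁ c₂ : ℝ} (hκ : 0 ≤ κ) (hκ₁ : κ₁ ≤ 0) (a₀ : ι → ℝ) (a : S → ι → ℝ)
    (ca : S → ℝ) (b : T → ι → ℝ) (cb : T → ℝ) (h1 : ∀ t, ∑ e, a₀ e * b t e ≤ c₁)
    (h2 : ∀ s t, -c₂ ≤ ∑ e, a s e * b t e) :
    ∫ g, Real.exp (∑ e, a₀ e * g e) * zp κ₁ a ca g * zp κ b cb g ∂(gpi ι) ≤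
      Real.exp (κ * (c₁ - κ₁ * c₂)) * (∫ g, Real.exp (∑ e, a₀ e * g e) * zp κ₁ a ca g ∂(gpi ι)) *
        ∫ g, zp κ b cb g ∂(gpi ι) := by
  set u0 : Unit → ι → ℝ := fun _ => a₀ with hu0
  have hz : ∀ g : ι → ℝ, zp 1 u0 (fun _ => 0) g = Real.exp (∑ e, a₀ e * g e) := by
    intro g
    unfold zp zz wt
    simp [hu0]
  set W : (ι ⊕ ι → ℝ) → ℝ := fun g => zp 1 (lf u0) (fun _ => 0) g * zp κ₁ (lf a) ca g with hWd
  set W' : ι ⊕ ι → (ι ⊕ ι → ℝ) → ℝ := fun i g =>
    W g * (lf u0 () i + κ₁ * gav (lf a) ca (fun s => lf a s i) g) with hW'd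
  have hW : Dom W := (zp_dom 1 _ _).mul (zp_dom κ₁ _ _)
  have hW' : ∀ i, Dom (W' i) := fun i =>
    hW.mul ((Dom.const _).add ((gav_dom (lf a) ca _).const_mul κ₁))
  have hWp : ∀ g, 0 < W g := fun g => mul_pos (zp_pos _ _ _ _) (zp_pos _ _ _ _)
  have hd : ∀ i g t, HasDerivAt (fun t => W (Function.update g i t))
      (W' i (Function.update g i t)) t := by
    intro i g t
    refine ((hasDerivAt_zp 1 (lf u0) (fun _ => 0) g i t).mul
      (hasDerivAt_zp κ₁ (lf a) ca g i t)).congr_deriv ?_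
    have z : gav (lf u0) (fun _ => 0) (fun s => lf u0 s i) (Function.update g i t) =
        lf u0 () i := by
      have : (fun s : Unit => lf u0 s i) = fun _ => lf u0 () i := by
        funext s; cases s; rfl
      rw [this]
      exact gav_const _ _ _ _
    rw [z]
    simp only [hW'd, hWd]
    ring
  set K : ℝ := c₁ - κ₁ * c₂ with hK
  have hA : ∀ θ s i, |rt b θ s i| ≤ ∑ t, ∑ e, |b t e| := by
    intro θ s i
    have h0 : ∀ e, |b s e| ≤ ∑ t, ∑ e, |b t e| := fun e =>
      (Finset.single_le_sum (f := fun e => |b s e|) (fun _ _ => abs_nonneg _)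
        (Finset.mem_univ e)).trans (Finset.single_le_sum (f := fun t => ∑ e, |b t e|)
        (fun _ _ => Finset.sum_nonneg fun _ _ => abs_nonneg _) (Finset.mem_univ s))
    rcases i with e | e
    · simp only [rt, Sum.elim_inl, abs_mul]
      exact (mul_le_of_le_one_left (abs_nonneg _) (Real.abs_cos_le_one θ)).trans (h0 e)
    · simp only [rt, Sum.elim_inr, abs_mul]
      exact (mul_le_of_le_one_left (abs_nonneg _) (Real.abs_sin_le_one θ)).trans (h0 e)
  have hA' : ∀ θ s i, |rt' b θ s i| ≤ ∑ t, ∑ e, |b t e| := by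
    intro θ s i
    have h0 : ∀ e, |b s e| ≤ ∑ t, ∑ e, |b t e| := fun e =>
      (Finset.single_le_sum (f := fun e => |b s e|) (fun _ _ => abs_nonneg _)
        (Finset.mem_univ e)).trans (Finset.single_le_sum (f := fun t => ∑ e, |b t e|)
        (fun _ _ => Finset.sum_nonneg fun _ _ => abs_nonneg _) (Finset.mem_univ s))
    rcases i with e | e
    · simp only [rt', Sum.elim_inl, abs_mul, abs_neg]
      exact (mul_le_of_le_one_left (abs_nonneg _) (Real.abs_sin_le_one θ)).trans (h0 e)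
    · simp only [rt', Sum.elim_inr, abs_mul]
      exact (mul_le_of_le_one_left (abs_nonneg _) (Real.abs_cos_le_one θ)).trans (h0 e)
  have ha : ∀ θ s i, HasDerivAt (fun θ => rt b θ s i) (rt' b θ s i) θ := by
    intro θ s i
    rcases i with e | e
    · simp only [rt, rt', Sum.elim_inl]
      exact (Real.hasDerivAt_cos θ).mul_const _
    · simp only [rt, rt', Sum.elim_inr]
      exact (Real.hasDerivAt_sin θ).mul_const _
  have hder := fun θ => deriv_mul κ hW hW' hd (c := cb) ha hA hA' (sum_rt_rt' b) θ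
  set Ψ : ℝ → ℝ := fun θ => ∫ g, W g * zp κ (rt b θ) cb g ∂(gpi (ι ⊕ ι)) with hΨ
  have hpt : ∀ θ, 0 ≤ Real.sin θ → ∀ g, -(Real.sin θ * K) * W g ≤
      ∑ i, W' i g * gav (rt b θ) cb (fun s => rt' b θ s i) g := by
    intro θ hs g
    have e1 : ∑ i, W' i g * gav (rt b θ) cb (fun s => rt' b θ s i) g =
        W g * (gav (rt b θ) cb (fun t => ∑ i, lf u0 () i * rt' b θ t i) g +
          κ₁ * gav (lf a) ca (fun s => gav (rt b θ) cb (fun t => ∑ i, lf a s i * rt' b θ t i) g)
            g) := by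
      have e2 : gav (lf a) ca (fun s => gav (rt b θ) cb (fun t => ∑ i, lf a s i * rt' b θ t i) g)
          g = ∑ i, gav (lf a) ca (fun s => lf a s i) g *
            gav (rt b θ) cb (fun t => rt' b θ t i) g := by
        have e3 : ∀ s, gav (rt b θ) cb (fun t => ∑ i, lf a s i * rt' b θ t i) g =
            ∑ i, gav (rt b θ) cb (fun t => rt' b θ t i) g * lf a s i := by
          intro s
          rw [gav_sum]
          refine Finset.sum_congr rfl fun i _ => ?_
          rw [gav_const_mul, mul_comm]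
        simp_rw [e3]
        rw [gav_sum]
        refine Finset.sum_congr rfl fun i _ => ?_
        rw [gav_const_mul, mul_comm]
      rw [e2, gav_sum, Finset.mul_sum, ← Finset.sum_add_distrib, Finset.mul_sum]
      refine Finset.sum_congr rfl fun i _ => ?_
      rw [gav_const_mul]
      simp only [hW'd]
      ring
    rw [e1]
    have b1 : -(Real.sin θ * c₁) ≤
        gav (rt b θ) cb (fun t => ∑ i, lf u0 () i * rt' b θ t i) g := by
      refine le_trans (le_of_eq (gav_const (rt b θ) cb _ g).symm) (gav_mono _ _ (fun t => ?_) g)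
      rw [sum_lf_rt']
      have := mul_le_mul_of_nonneg_left (h1 t) hs
      simp only [hu0]
      linarith
    have b2 : gav (lf a) ca (fun s => gav (rt b θ) cb (fun t => ∑ i, lf a s i * rt' b θ t i) g)
        g ≤ Real.sin θ * c₂ := by
      refine le_trans (gav_mono _ _ (fun s => ?_) g) (le_of_eq (gav_const (lf a) ca _ g))
      refine le_trans (gav_mono _ _ (fun t => ?_) g) (le_of_eq (gav_const (rt b θ) cb _ g))
      rw [sum_lf_rt']
      have := mul_le_mul_of_nonneg_left (h2 s t) hs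
      linarith
    have b3 := mul_le_mul_of_nonpos_left b2 hκ₁
    have b4 : -(Real.sin θ * K) ≤ gav (rt b θ) cb (fun t => ∑ i, lf u0 () i * rt' b θ t i) g +
          κ₁ * gav (lf a) ca (fun s => gav (rt b θ) cb (fun t => ∑ i, lf a s i * rt' b θ t i) g)
            g := by
      rw [hK]
      linarith
    have := mul_le_mul_of_nonneg_left b4 (hWp g).le
    linarith
  have hmono : MonotoneOn (fun θ => Real.exp (-(κ * K * Real.cos θ)) * Ψ θ)
      (Set.Icc 0 (Real.pi / 2)) := by
    have hdd : ∀ θ, HasDerivAt (fun θ => Real.exp (-(κ * K * Real.cos θ)) * Ψ θ)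
        (Real.exp (-(κ * K * Real.cos θ)) * -(κ * K * -Real.sin θ) * Ψ θ +
          Real.exp (-(κ * K * Real.cos θ)) * ∫ g, κ * (zp κ (rt b θ) cb g *
            ∑ i, W' i g * gav (rt b θ) cb (fun s => rt' b θ s i) g) ∂(gpi (ι ⊕ ι))) θ :=
      fun θ => ((((Real.hasDerivAt_cos θ).const_mul (κ * K)).neg).exp).mul (hder θ)
    refine monotoneOn_of_hasDerivWithinAt_nonneg (convex_Icc _ _)
      (fun θ _ => (hdd θ).continuousAt.continuousWithinAt)
      (fun θ _ => (hdd θ).hasDerivWithinAt) ?_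
    intro θ hθ
    rw [interior_Icc] at hθ
    have hs : 0 ≤ Real.sin θ := Real.sin_nonneg_of_nonneg_of_le_pi hθ.1.le
      (by linarith [hθ.2, Real.pi_pos])
    have h3 : ∫ g, κ * (-(Real.sin θ * K)) * (W g * zp κ (rt b θ) cb g) ∂(gpi (ι ⊕ ι)) ≤
        ∫ g, κ * (zp κ (rt b θ) cb g *
          ∑ i, W' i g * gav (rt b θ) cb (fun s => rt' b θ s i) g) ∂(gpi (ι ⊕ ι)) := by
      refine int_mono ((hW.mul (zp_dom _ _ _)).const_mul _) (((zp_dom _ _ _).mul
        (Dom.sum _ fun i _ => (hW' i).mul (gav_dom _ _ _))).const_mul _) fun g => ?_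
      have := mul_le_mul_of_nonneg_left (mul_le_mul_of_nonneg_left (hpt θ hs g)
        (zp_pos κ (rt b θ) cb g).le) hκ
      linarith
    rw [integral_const_mul] at h3
    have h4 := mul_le_mul_of_nonneg_left h3 (Real.exp_pos (-(κ * K * Real.cos θ))).le
    have h5 : Ψ θ = ∫ g, W g * zp κ (rt b θ) cb g ∂(gpi (ι ⊕ ι)) := rfl
    rw [← h5] at h4
    linarith
  have h6 := hmono (Set.left_mem_Icc.2 (by positivity)) (Set.right_mem_Icc.2 (by positivity))
    (by positivity : (0 : ℝ) ≤ Real.pi / 2)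
  simp only [Real.cos_zero, Real.cos_pi_div_two, mul_zero, neg_zero, Real.exp_zero, one_mul,
    mul_one] at h6
  have e0 : Ψ 0 = ∫ g, Real.exp (∑ e, a₀ e * g e) * zp κ₁ a ca g * zp κ b cb g ∂(gpi ι) := by
    have := int_sum_prod (ι := ι) (fun u => Real.exp (∑ e, a₀ e * u e) * zp κ₁ a ca u *
      zp κ b cb u) (fun _ => 1)
    simp only [mul_one, integral_const, probReal_univ, smul_eq_mul] at this
    rw [← this, hΨ]
    refine integral_congr_ae (Filter.Eventually.of_forall fun g => ?_)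
    simp only [hWd]
    rw [zp_lf, zp_lf, zp_rt_zero, hz]
  have e1 : Ψ (Real.pi / 2) = (∫ g, Real.exp (∑ e, a₀ e * g e) * zp κ₁ a ca g ∂(gpi ι)) *
      ∫ g, zp κ b cb g ∂(gpi ι) := by
    have := int_sum_prod (ι := ι) (fun u => Real.exp (∑ e, a₀ e * u e) * zp κ₁ a ca u)
      (fun v => zp κ b cb v)
    rw [← this, hΨ]
    refine integral_congr_ae (Filter.Eventually.of_forall fun g => ?_)
    simp only [hWd]
    rw [zp_lf, zp_lf, zp_rt_pi, hz]
  rw [e0, e1] at h6
  have h7 := mul_le_mul_of_nonneg_left h6 (Real.exp_pos (κ * K)).le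
  rw [← mul_assoc, ← Real.exp_add, add_neg_cancel, Real.exp_zero, one_mul] at h7
  rw [mul_assoc]
  exact h7

end two

section sk

open Vale.Agent.P146.H605 Vale.Agent.P146.H605.Gauge

variable {n : ℕ} {β : ℝ}

lemma exp_mul_freeEnergy (κ : ℝ) (g : Pair n → ℝ) :
    Real.exp (κ * freeEnergy n β g) = zp κ (ska n β) (fun _ => 0) g := by
  unfold freeEnergy zp
  rw [partitionFn_eq]

/-- the comparison for one configuration of the first copy -/
lemma cmp_one (hn : 1 ≤ n) {x x' ε : ℝ} (hx' : 0 < x') (hxx : x' ≤ x) (hx : x ≤ 1)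
    (σ : Fin n → ℤˣ) :
    ∫ g, Real.exp ((x - x' - 1) * freeEnergy n β g) * (Real.exp (β * hamiltonian n g σ) *
      (∑ τ ∈ Finset.univ.filter (fun τ : Fin n → ℤˣ => |overlap n σ τ| ≤ ε),
        Real.exp (β * hamiltonian n g τ)) ^ x') ∂(disorder n) ≤
      Real.exp (β ^ 2 * x' * n * ε ^ 2 / 2) *
        (∫ g, Real.exp ((x - x' - 1) * freeEnergy n β g) * Real.exp (β * hamiltonian n g σ)
          ∂(disorder n)) *
        ∫ g, Real.exp (x' * freeEnergy n β g) ∂(disorder n) := by
  have hn0 : (0 : ℝ) < n := by exact_mod_cast hn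
  rw [disorder_eq]
  have hI1 : 0 ≤ ∫ g, Real.exp ((x - x' - 1) * freeEnergy n β g) *
      Real.exp (β * hamiltonian n g σ) ∂(gpi (Pair n)) :=
    integral_nonneg fun g => by positivity
  have hI2 : 0 ≤ ∫ g, Real.exp (x' * freeEnergy n β g) ∂(gpi (Pair n)) :=
    integral_nonneg fun g => by positivity
  by_cases hT : ∃ τ : Fin n → ℤˣ, |overlap n σ τ| ≤ ε
  · have : Nonempty {τ : Fin n → ℤˣ // |overlap n σ τ| ≤ ε} := ⟨⟨hT.choose, hT.choose_spec⟩⟩
    have hε : 0 ≤ ε := (abs_nonneg _).trans hT.choose_spec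
    set b : {τ : Fin n → ℤˣ // |overlap n σ τ| ≤ ε} → Pair n → ℝ := fun τ => ska n β τ.1 with hb
    have hsum : ∀ g : Pair n → ℝ,
        (∑ τ ∈ Finset.univ.filter (fun τ : Fin n → ℤˣ => |overlap n σ τ| ≤ ε),
          Real.exp (β * hamiltonian n g τ)) = zz b (fun _ => 0) g := by
      intro g
      unfold zz wt
      rw [Finset.sum_subtype (p := fun τ : Fin n → ℤˣ => |overlap n σ τ| ≤ ε) _
        (fun τ => by simp)]
      refine Finset.sum_congr rfl fun τ _ => ?_
      rw [hb, ska_sum, add_zero]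
    have hpow : ∀ g : Pair n → ℝ,
        (∑ τ ∈ Finset.univ.filter (fun τ : Fin n → ℤˣ => |overlap n σ τ| ≤ ε),
          Real.exp (β * hamiltonian n g τ)) ^ x' = zp x' b (fun _ => 0) g := by
      intro g
      rw [hsum, Real.rpow_def_of_pos (zz_pos _ _ _), mul_comm]
      rfl
    have h1 : ∀ t, ∑ e, ska n β σ e * b t e ≤ β ^ 2 / 2 * (n * ε ^ 2 - 1) := by
      intro t
      rw [hb, ska_inner n β hn]
      have := t.2
      have h3 : overlap n σ t.1 ^ 2 ≤ ε ^ 2 := by
        rw [← sq_abs]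
        exact pow_le_pow_left₀ (abs_nonneg _) this 2
      unfold ww
      gcongr
    have h2 : ∀ s t, -(β ^ 2 / 2) ≤ ∑ e, ska n β s e * b t e := by
      intro s t
      rw [hb, ska_inner n β hn]
      have := ww_nonneg (n := n) s t.1
      have h3 : 0 ≤ β ^ 2 / 2 := by positivity
      nlinarith
    have h := cmp_gen (κ := x') (κ₁ := x - x' - 1) hx'.le (by linarith) (ska n β σ) (ska n β)
      (fun _ => 0) b (fun _ => 0) h1 h2
    have e1 : ∀ g : Pair n → ℝ, Real.exp ((x - x' - 1) * freeEnergy n β g) *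
        (Real.exp (β * hamiltonian n g σ) *
        (∑ τ ∈ Finset.univ.filter (fun τ : Fin n → ℤˣ => |overlap n σ τ| ≤ ε),
          Real.exp (β * hamiltonian n g τ)) ^ x') =
        Real.exp (∑ e, ska n β σ e * g e) * zp (x - x' - 1) (ska n β) (fun _ => 0) g *
          zp x' b (fun _ => 0) g := by
      intro g
      rw [hpow, exp_mul_freeEnergy, ska_sum]
      ring
    have e2 : ∀ g : Pair n → ℝ, Real.exp ((x - x' - 1) * freeEnergy n β g) *
        Real.exp (β * hamiltonian n g σ) =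
        Real.exp (∑ e, ska n β σ e * g e) * zp (x - x' - 1) (ska n β) (fun _ => 0) g := by
      intro g
      rw [exp_mul_freeEnergy, ska_sum]
      ring
    simp_rw [e1]
    refine h.trans ?_
    simp_rw [← e2]
    have h4 : ∫ g, zp x' b (fun _ => 0) g ∂(gpi (Pair n)) ≤
        ∫ g, Real.exp (x' * freeEnergy n β g) ∂(gpi (Pair n)) := by
      simp_rw [exp_mul_freeEnergy]
      refine int_mono (zp_dom _ _ _) (zp_dom _ _ _) fun g => ?_
      unfold zp
      refine Real.exp_le_exp.2 (mul_le_mul_of_nonneg_left (Real.log_le_log (zz_pos _ _ _) ?_)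
        hx'.le)
      rw [← hsum g, ← partitionFn_eq]
      unfold partitionFn
      exact Finset.sum_le_univ_sum_of_nonneg fun τ => (Real.exp_pos _).le
    have h5 : Real.exp (x' * (β ^ 2 / 2 * (n * ε ^ 2 - 1) - (x - x' - 1) * (β ^ 2 / 2))) ≤
        Real.exp (β ^ 2 * x' * n * ε ^ 2 / 2) := by
      refine Real.exp_le_exp.2 ?_
      have h6 : 0 ≤ x' * (β ^ 2 / 2) * (x - x') := by
        have := sub_nonneg.2 hxx
        positivity
      nlinarith
    exact mul_le_mul (mul_le_mul_of_nonneg_right h5 hI1) h4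
      (integral_nonneg fun g => (zp_pos _ _ _ _).le) (by positivity)
  · have e0 : Finset.univ.filter (fun τ : Fin n → ℤˣ => |overlap n σ τ| ≤ ε) = ∅ := by
      refine Finset.filter_eq_empty_iff.2 fun τ _ h => hT ⟨τ, h⟩
    rw [e0]
    simp only [Finset.sum_empty, Real.zero_rpow hx'.ne', mul_zero, integral_zero]
    positivity

/-- **The comparison for the SK model**: the restricted partition function of a second copy of
the same disorder, at a small overlap with a Gibbs replica. -/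
theorem cmp_sk (hn : 1 ≤ n) {x x' ε : ℝ} (hx' : 0 < x') (hxx : x' ≤ x) (hx : x ≤ 1) :
    ∫ g, Real.exp ((x - x' - 1) * freeEnergy n β g) *
      ∑ σ : Fin n → ℤˣ, Real.exp (β * hamiltonian n g σ) *
        (∑ τ ∈ Finset.univ.filter (fun τ : Fin n → ℤˣ => |overlap n σ τ| ≤ ε),
          Real.exp (β * hamiltonian n g τ)) ^ x' ∂(disorder n) ≤
      Real.exp (β ^ 2 * x' * n * ε ^ 2 / 2) *
        (∫ g, Real.exp ((x - x') * freeEnergy n β g) ∂(disorder n)) *
        ∫ g, Real.exp (x' * freeEnergy n β g) ∂(disorder n) := by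
  have hP := fun g : Pair n → ℝ => partitionFn_pos (n := n) β g
  -- integrability of the summands
  have hexp : ∀ g : Pair n → ℝ, Real.exp ((x - x') * freeEnergy n β g) =
      ∑ σ : Fin n → ℤˣ, Real.exp ((x - x' - 1) * freeEnergy n β g) *
        Real.exp (β * hamiltonian n g σ) := by
    intro g
    rw [← Finset.mul_sum]
    have : ∑ σ : Fin n → ℤˣ, Real.exp (β * hamiltonian n g σ) = Real.exp (freeEnergy n β g) := by
      unfold freeEnergy
      rw [Real.exp_log (hP g)]
      rfl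
    rw [this, ← Real.exp_add]
    congr 1
    ring
  have d1 : ∀ σ : Fin n → ℤˣ, Dom (fun g : Pair n → ℝ =>
      Real.exp ((x - x' - 1) * freeEnergy n β g) * Real.exp (β * hamiltonian n g σ)) := by
    intro σ
    refine Dom.congr ((zp_dom (x - x' - 1) (ska n β) (fun _ => 0)).mul
      (zp_dom 1 (fun _ : Unit => ska n β σ) (fun _ => 0))) fun g => ?_
    rw [exp_mul_freeEnergy, ← ska_sum]
    unfold zp zz wt
    simp
  have d2 : ∀ σ : Fin n → ℤˣ, Integrable (fun g : Pair n → ℝ =>
      Real.exp ((x - x' - 1) * freeEnergy n β g) * (Real.exp (β * hamiltonian n g σ) *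
      (∑ τ ∈ Finset.univ.filter (fun τ : Fin n → ℤˣ => |overlap n σ τ| ≤ ε),
        Real.exp (β * hamiltonian n g τ)) ^ x')) (disorder n) := by
    intro σ
    rw [disorder_eq]
    have d3 := (d1 σ).mul (zp_dom x' (ska n β) (fun _ => 0))
    refine Integrable.mono' d3.integrable (Continuous.aestronglyMeasurable ?_)
      (Filter.Eventually.of_forall fun g => ?_)
    · have c1 : Continuous fun g : Pair n → ℝ =>
          ∑ τ ∈ Finset.univ.filter (fun τ : Fin n → ℤˣ => |overlap n σ τ| ≤ ε),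
            Real.exp (β * hamiltonian n g τ) :=
        continuous_finsetSum _ fun τ _ =>
          Real.continuous_exp.comp (continuous_const.mul (continuous_hamiltonian τ))
      have c2 := c1.rpow_const (p := x') fun g => Or.inr hx'.le
      have c3 := d1 σ
      refine (c3.cont.mul c2).congr fun g => ?_
      simp only [Pi.mul_apply]
      ring
    · have h0 : 0 ≤ ∑ τ ∈ Finset.univ.filter (fun τ : Fin n → ℤˣ => |overlap n σ τ| ≤ ε),
            Real.exp (β * hamiltonian n g τ) :=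
        Finset.sum_nonneg fun τ _ => (Real.exp_pos _).le
      have h1 : (∑ τ ∈ Finset.univ.filter (fun τ : Fin n → ℤˣ => |overlap n σ τ| ≤ ε),
            Real.exp (β * hamiltonian n g τ)) ^ x' ≤ zp x' (ska n β) (fun _ => 0) g := by
        rw [← exp_mul_freeEnergy]
        have h2 : (partitionFn n β g) ^ x' = Real.exp (x' * freeEnergy n β g) := by
          rw [Real.rpow_def_of_pos (hP g), mul_comm]
          rfl
        rw [← h2]
        refine Real.rpow_le_rpow h0 ?_ hx'.le
        unfold partitionFn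
        exact Finset.sum_le_univ_sum_of_nonneg fun τ => (Real.exp_pos _).le
      rw [Real.norm_eq_abs, abs_of_nonneg (by positivity), ← mul_assoc]
      exact mul_le_mul_of_nonneg_left h1 (by positivity)
  simp_rw [Finset.mul_sum, hexp]
  have d4 : ∀ σ : Fin n → ℤˣ, Integrable (fun g : Pair n → ℝ =>
      Real.exp ((x - x' - 1) * freeEnergy n β g) * Real.exp (β * hamiltonian n g σ))
      (disorder n) := fun σ => (d1 σ).integrable
  rw [integral_finsetSum _ fun σ _ => d2 σ, integral_finsetSum _ fun σ _ => d4 σ,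
    Finset.mul_sum, Finset.sum_mul]
  exact Finset.sum_le_sum fun σ _ => cmp_one hn hx' hxx hx σ

/-- The same in terms of the Gibbs weights: `E [e^{xF} ⟨p₂(σ)^{x'}⟩]`, `p₂(σ)` the Gibbs
probability of the configurations at an overlap at most `ε` with `σ`. -/
theorem cmp_gibbs (hn : 1 ≤ n) {x x' ε : ℝ} (hx' : 0 < x') (hxx : x' ≤ x) (hx : x ≤ 1) :
    ∫ g, Real.exp (x * freeEnergy n β g) * ∑ σ : Fin n → ℤˣ, gibbs n β g σ *
        (∑ τ ∈ Finset.univ.filter (fun τ : Fin n → ℤˣ => |overlap n σ τ| ≤ ε),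
          gibbs n β g τ) ^ x' ∂(disorder n) ≤
      Real.exp (β ^ 2 * x' * n * ε ^ 2 / 2) *
        (∫ g, Real.exp ((x - x') * freeEnergy n β g) ∂(disorder n)) *
        ∫ g, Real.exp (x' * freeEnergy n β g) ∂(disorder n) := by
  refine le_trans (le_of_eq ?_) (cmp_sk (β := β) (ε := ε) hn hx' hxx hx)
  refine integral_congr_ae (Filter.Eventually.of_forall fun g => ?_)
  simp only
  have hP := partitionFn_pos (n := n) β g
  have e0 : Real.exp ((x - x' - 1) * freeEnergy n β g) =
      Real.exp (x * freeEnergy n β g) * (partitionFn n β g)⁻¹ *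
        ((partitionFn n β g) ^ x')⁻¹ := by
    have h1 : (partitionFn n β g) ^ x' = Real.exp (x' * freeEnergy n β g) := by
      rw [Real.rpow_def_of_pos hP, mul_comm]
      rfl
    have h2 : partitionFn n β g = Real.exp (freeEnergy n β g) := by
      unfold freeEnergy
      rw [Real.exp_log hP]
    rw [h1, h2, ← Real.exp_neg, ← Real.exp_neg, ← Real.exp_add, ← Real.exp_add]
    congr 1
    ring
  rw [e0, Finset.mul_sum, Finset.mul_sum]
  refine Finset.sum_congr rfl fun σ _ => ?_
  have e1 : (∑ τ ∈ Finset.univ.filter (fun τ : Fin n → ℤˣ => |overlap n σ τ| ≤ ε),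
      gibbs n β g τ) ^ x' =
      (∑ τ ∈ Finset.univ.filter (fun τ : Fin n → ℤˣ => |overlap n σ τ| ≤ ε),
        Real.exp (β * hamiltonian n g τ)) ^ x' * ((partitionFn n β g) ^ x')⁻¹ := by
    unfold gibbs
    rw [← Finset.sum_div, Real.div_rpow (Finset.sum_nonneg fun τ _ => (Real.exp_pos _).le) hP.le,
      div_eq_mul_inv]
  rw [e1]
  unfold gibbs
  rw [div_eq_mul_inv]
  ring

end sk

end Vale.Agent.P146.H461
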