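import Vale.Agent.P146.H461.StCmp
import Vale.Agent.P146.H326.StDef

/-!
# P146: the comparison row of the start of the descent
-/

open MeasureTheory ProbabilityTheory

namespace Vale.Agent.P146.H461

open Vale.Agent.P146 Vale.Agent.P146.H501 Vale.Agent.P146.H605 Vale.Agent.P146.H605.Gauge
open Vale.Agent.P146.H326.St

variable {n : ℕ} {β : ℝ}

lemma integrable_exp_F (y : ℝ) :
    Integrable (fun g : Pair n → ℝ => Real.exp (y * freeEnergy n β g)) (disorder n) := by
  have := (zp_dom y (ska n β) (fun _ => 0)).integrable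
  refine (Integrable.congr this (Filter.Eventually.of_forall fun g => ?_))
  exact (exp_mul_freeEnergy y g).symm

lemma exp_Lg (y : ℝ) : Real.exp (Lg n β y) =
    ∫ g, Real.exp (y * freeEnergy n β g) ∂(disorder n) :=
  Real.exp_log (integral_exp_pos (integrable_exp_F y))

/-- **The comparison row.** -/
theorem cmp : Cmp := by
  intro n β x x' ε hn hx' hxx hx _
  have h := cmp_gibbs (β := β) (ε := ε) hn hx' hxx hx
  have e : ∀ (g : Pair n → ℝ) (σ : Fin n → ℤˣ),
      ∑ τ : Fin n → ℤˣ, (if |overlap n σ τ| ≤ ε then (1 : ℝ) else 0) * gibbs n β g τ =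
        ∑ τ ∈ Finset.univ.filter (fun τ : Fin n → ℤˣ => |overlap n σ τ| ≤ ε),
          gibbs n β g τ := by
    intro g σ
    rw [Finset.sum_filter]
    exact Finset.sum_congr rfl fun τ _ => by split_ifs <;> simp
  unfold P2
  simp_rw [e]
  rw [← exp_Lg (n := n) (β := β) x, div_le_iff₀ (Real.exp_pos _), ← Real.exp_add]
  refine h.trans (le_of_eq ?_)
  rw [← exp_Lg, ← exp_Lg, ← Real.exp_add, ← Real.exp_add]
  congr 1
  ring

end Vale.Agent.P146.H461
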